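import Vale.Agent.P255.Cover.Covering
import Vale.Agent.P255.CN
import Vale.Agent.P255.Loops.Main
import Vale.Agent.P255.Loops.Fibre

/-!
# A manifold made of the pieces has no metric of nonpositive curvature

The covering by the exponential map is an input here.
-/

open Set Filter Topology
open scoped Manifold ContDiff RealInnerProductSpace

set_option maxSynthPendingDepth 3

namespace Vale.Agent.P255.Cover

open Vale.Agent.P219 Vale.Agent.P219.Univ

noncomputable section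

variable {M : Type} [TopologicalSpace M] [ChartedSpace E3 M] [IsManifold (𝓡 3) ∞ M]
  {δ : ℝ} {g : SmoothMetric M} {E : E3 → M}

/-- The radial bound of `E` in a metric `g`. -/
def RadialBound (g : SmoothMetric M) (E : E3 → M) : Prop :=
  ∀ x v : E3, |inner ℝ x v| ≤ ‖x‖ * gNorm (pullBack g E) x v

/-- Outside a neighbourhood a definite proper distance is bounded below. -/
theorem exists_dist_lb {d : E3 → E3 → ℝ} (hd : IsCN d)
    (hc : Continuous fun p : E3 × E3 => d p.1 p.2) (hdef : ∀ x y, d x y = 0 → x = y)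
    (hprop : ∀ x r, IsCompact {y | d x y ≤ r}) {y : E3} {U : Set E3} (hU : U ∈ 𝓝 y) :
    ∃ ε > 0, ∀ z ∉ U, ε ≤ d y z := by
  obtain ⟨W, hWU, hW, hyW⟩ := mem_nhds_iff.1 hU
  rcases ({z | d y z ≤ 1} \ W).eq_empty_or_nonempty with hK | hK
  · refine ⟨1, one_pos, fun z hz => le_of_not_gt fun hlt => ?_⟩
    exact (eq_empty_iff_forall_notMem.1 hK z) ⟨show d y z ≤ 1 from hlt.le, fun hw => hz (hWU hw)⟩
  · obtain ⟨z₀, hz₀, hmin⟩ := ((hprop y 1).diff hW).exists_isMinOn hK
      (hc.comp (continuous_const.prodMk continuous_id)).continuousOn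
    have hpos : 0 < d y z₀ := lt_of_le_of_ne (hd.nonneg y z₀) fun e =>
      hz₀.2 (hdef y z₀ e.symm ▸ hyW)
    refine ⟨min 1 (d y z₀), lt_min one_pos hpos, fun z hz => ?_⟩
    rcases le_or_gt (d y z) 1 with h | h
    · exact (min_le_right _ _).trans (hmin ⟨h, fun hw => hz (hWU hw)⟩)
    · exact (min_le_left _ _).trans h.le

/-- The covering hypotheses exclude nonpositive curvature on a manifold made of the pieces. -/
theorem not_nonpositive_of_cover [CompactSpace M] (h0 : 0 < δ) (h1 : δ ≤ 1) (P : Pieces δ g)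
    (hE : ContMDiff (𝓡 3) (𝓡 3) ∞ E)
    (hbij : ∀ y, Function.Bijective (mfderiv (𝓡 3) (𝓡 3) E y)) (hr : RadialBound g E)
    (hcov : IsCoveringMap E) (hsurj : Function.Surjective E)
    (hray : ∃ v, ∀ t : ℝ, E (t • v) = P.V (pt 5 (-5) t)) (h : SmoothMetric M) :
    ¬ Nonpositive h := by
  intro hn
  obtain ⟨v, hv⟩ := hray
  have hv0 : v ≠ 0 := by
    rintro rfl
    have e := (hv 0).symm.trans ((congrArg E (by simp : (0 : ℝ) • (0 : E3) = (δ / 2) • (0 : E3))).trans
      (hv (δ / 2)))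
    obtain ⟨-, -, m, hm⟩ := (P.first.fibre _ (Loops.line_mem_block rhoV_bounds.1.le rhoV_bounds.2 _)
      _ (Loops.line_mem_block rhoV_bounds.1.le rhoV_bounds.2 _)).1 e
    rw [Atlas.pt_two, Atlas.pt_two] at hm
    have hm2 : (2 : ℝ) * m = 1 := mul_right_cancel₀ h0.ne' (by linear_combination -2 * hm)
    have : (2 : ℤ) * m = 1 := by exact_mod_cast hm2
    omega
  obtain ⟨d, hd, hdc, hdef, hprop, hiso'⟩ := exists_deckDist hE hbij hr hn
  have hiso : ∀ φ ∈ Loops.Deck E, ∀ x y, d (φ x) (φ y) = d x y :=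
    fun φ hφ => hiso' φ hφ.1 hφ.2.1 hφ.2.2
  obtain ⟨f, hf, f', hf', a, ha, b, hb, a', ha', b', hb', hf1, hff, hfa, hfb, hfa', hfb', e1, e2⟩ :=
    Loops.exists_relations h0 h1 P hcov hsurj hv0 hv
  obtain ⟨K, hK, hKcov⟩ := Loops.exists_compact_reps hcov hsurj
  have hdisc : ∀ y, ∃ ε > 0, ∀ φ ∈ Loops.Deck E, φ ≠ 1 → ε ≤ d y (φ y) := fun y => by
    obtain ⟨U, hU, hfree⟩ := Loops.exists_free_nhd hcov y
    obtain ⟨ε, hε, hlb⟩ := exists_dist_lb hd hdc hdef hprop hU
    exact ⟨ε, hε, fun φ hφ hφ1 => hlb _ (hfree φ hφ hφ1)⟩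
  have hε := hd.exists_disp_pos (fun y => hdc.comp (continuous_const.prodMk continuous_id))
    (Loops.Deck E) hiso hK hKcov hdisc hf hf1
  refine hd.false_of_relations 0 (f := f) (f' := f') (a := a) (b := b) (a' := a') (b' := b')
    (fun φ hφ => ?_) hε hff hfa hfb hfa' hfb' e1 e2
  simp only [List.mem_cons, List.not_mem_nil, or_false] at hφ
  rcases hφ with rfl | rfl | rfl | rfl | rfl | rfl <;> exact hiso _ ‹_›

/-- Exponential maps for every point exclude nonpositive curvature on a manifold made of the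
pieces. -/
theorem not_nonpositive_of_exp [T2Space M] [CompactSpace M] [ConnectedSpace M] (h0 : 0 < δ)
    (h1 : δ ≤ 1) (P : Pieces δ g)
    (hexp : ∀ p : M, ∃ E : E3 → M, ContMDiff (𝓡 3) (𝓡 3) ∞ E ∧
      (∀ y, Function.Bijective (mfderiv (𝓡 3) (𝓡 3) E y)) ∧ RadialBound g E ∧
      ∀ γ, IsGeodesic g γ → γ 0 = p → ∃ v, ∀ t : ℝ, E (t • v) = γ t)
    (h : SmoothMetric M) : ¬ Nonpositive h := by
  obtain ⟨E, hE, hbij, hr, hgeo⟩ := hexp (P.V (pt 5 (-5) 0))
  exact not_nonpositive_of_cover h0 h1 P hE hbij hr (isCoveringMap_exp hE hbij hr)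
    (surjective_exp hE hbij hr) (hgeo _ (Loops.isGeodesic_fibre P) rfl) h

end

end Vale.Agent.P255.Cover
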