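import Mathlib
import Vale.Agent.P255.Along
import Vale.Agent.P255.Hadamard.CN
import Vale.Agent.P255.Hadamard.Complete

/-!
# Metrics pulled back by an exponential local diffeomorphism

If `E : ℝ^3 → M` is a local diffeomorphism whose radial component is bounded by `g` (Gauss lemma),
then every metric on the compact manifold `M` pulls back to a complete one, and the deck maps of
`E` preserve the distance of the pullback of a metric of nonpositive curvature.
-/

open Set Filter Topology
open scoped Manifold ContDiff RealInnerProductSpace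

set_option maxSynthPendingDepth 3

namespace Vale.Agent.P255

open Vale.Agent.P219 Vale.Agent.P219.Univ

noncomputable section

variable {M : Type} [TopologicalSpace M] [ChartedSpace E3 M] [IsManifold (𝓡 3) ∞ M]

/-- The components of the pullback of a metric. -/
def pullBack (g : SmoothMetric M) (E : E3 → M) : MetricField 3 := fun y =>
  let L : E3 →L[ℝ] E3 := mfderiv (𝓡 3) (𝓡 3) E y
  let B : E3 →L[ℝ] E3 →L[ℝ] ℝ := g.inner (E y)
  B.bilinearComp L L

variable {g : SmoothMetric M} {E : E3 → M}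

theorem isParam_pullBack (hE : ContMDiff (𝓡 3) (𝓡 3) ∞ E)
    (hbij : ∀ y, Function.Bijective (mfderiv (𝓡 3) (𝓡 3) E y)) (g : SmoothMetric M) :
    IsParam g E univ (pullBack g E) :=
  ⟨isOpen_univ, hE.contMDiffOn, fun y _ => hbij y, fun _ _ _ _ => rfl⟩

theorem isMetric_pullBack (hE : ContMDiff (𝓡 3) (𝓡 3) ∞ E)
    (hbij : ∀ y, Function.Bijective (mfderiv (𝓡 3) (𝓡 3) E y)) (g : SmoothMetric M) :
    IsMetric (pullBack g E) := by
  have h := fun y : E3 => (isParam_pullBack hE hbij g).metricNear (mem_univ y)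
  exact ⟨contDiff_iff_contDiffAt.2 fun y => (h y).smooth.self_of_nhds,
    fun y => (h y).symm.self_of_nhds, fun y => (h y).pos.self_of_nhds⟩

theorem secBound_pullBack (hE : ContMDiff (𝓡 3) (𝓡 3) ∞ E)
    (hbij : ∀ y, Function.Bijective (mfderiv (𝓡 3) (𝓡 3) E y)) (hn : Nonpositive g) :
    SecBound (pullBack g E) 0 := fun y u v => by
  rw [zero_mul]
  exact (isParam_pullBack hE hbij g).sec_nonpos (mem_univ y) hn u v

/-- On a compact manifold two metrics are comparable. -/
theorem exists_comparison [CompactSpace M] (g h : SmoothMetric M) :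
    ∃ C : ℝ, 0 < C ∧ ∀ (p : M) (v : TangentSpace (𝓡 3) p), g.inner p v v ≤ C * h.inner p v v := by
  have hloc : ∀ x : M, ∃ U ∈ 𝓝 x, ∃ C : ℝ, ∀ p ∈ U, ∀ v : TangentSpace (𝓡 3) p,
      g.inner p v v ≤ C * h.inner p v v := by
    intro x
    set e := extChartAt (𝓡 3) x
    obtain ⟨r, hr, hball⟩ := Metric.isOpen_iff.1 (isOpen_extChartAt_target (I := 𝓡 3) x) (e x)
      (mem_extChartAt_target x)
    set K := Metric.closedBall (e x) (r / 2) ×ˢ Metric.sphere (0 : E3) 1
    have hKsub : ∀ z ∈ Metric.closedBall (e x) (r / 2), z ∈ e.target := fun z hz =>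
      hball (lt_of_le_of_lt (Metric.mem_closedBall.1 hz) (by linarith))
    have hcont : ∀ k : SmoothMetric M,
        ContinuousOn (fun q : E3 × E3 => inChart k x q.1 q.2 q.2) K := fun k q hq => by
      have h1 : ContinuousAt (inChart k x) q.1 :=
        ((isParam_chart k x).metricNear (hKsub q.1 hq.1)).smooth.self_of_nhds.continuousAt
      exact (((h1.comp continuousAt_fst).clm_apply continuousAt_snd).clm_apply
        continuousAt_snd).continuousWithinAt
    have hne : ∀ q ∈ K, q.2 ≠ 0 := fun q hq h0 => by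
      have := hq.2
      rw [h0, mem_sphere_zero_iff_norm, norm_zero] at this
      exact zero_ne_one this
    have hpos : ∀ q ∈ K, 0 < inChart h x q.1 q.2 q.2 := fun q hq =>
      ((isParam_chart h x).metricNear (hKsub q.1 hq.1)).pos.self_of_nhds _ (hne q hq)
    obtain ⟨C, hC⟩ := ((isCompact_closedBall _ _).prod (isCompact_sphere _ _)).exists_bound_of_continuousOn
      ((hcont g).div (hcont h) fun q hq => (hpos q hq).ne')
    refine ⟨e.source ∩ e ⁻¹' Metric.closedBall (e x) (r / 2), ?_, C, fun p hp v => ?_⟩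
    · exact inter_mem (extChartAt_source_mem_nhds x)
        ((continuousAt_extChartAt x).preimage_mem_nhds
          (Metric.closedBall_mem_nhds _ (by linarith)))
    · have hback : e.symm (e p) = p := e.left_inv hp.1
      set L : E3 →L[ℝ] E3 := mfderiv (𝓡 3) (𝓡 3) (extChartAt (𝓡 3) x).symm (e p)
      obtain ⟨w, hw⟩ : ∃ w : E3, L w = (v : E3) := (bijective_mfderiv_symm (hKsub _ hp.2)).2 v
      have hk : ∀ k : SmoothMetric M, inChart k x (e p) w w = k.inner p v v := fun k => by
        have : (k.inner (e.symm (e p)) : E3 →L[ℝ] E3 →L[ℝ] ℝ) (L w) (L w) = k.inner p v v := by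
          rw [hback, hw]
        exact this
      rcases eq_or_ne w 0 with hw0 | hw0
      · rw [← hk g, ← hk h, hw0]
        simp
      · have hn : 0 < ‖w‖ := norm_pos_iff.2 hw0
        have hq : (e p, ‖w‖⁻¹ • w) ∈ K :=
          ⟨hp.2, by simp [norm_smul, inv_mul_cancel₀ hn.ne']⟩
        have h1 := (le_abs_self _).trans (hC _ hq)
        simp only [Pi.div_apply, map_smul, smul_apply, smul_eq_mul] at h1
        rw [mul_div_mul_left _ _ (inv_ne_zero hn.ne'), mul_div_mul_left _ _ (inv_ne_zero hn.ne'),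
          div_le_iff₀ ((((isParam_chart h x).metricNear (hKsub _ hp.2)).pos.self_of_nhds) _ hw0),
          hk g, hk h] at h1
        exact h1
  choose U hU C hC using hloc
  obtain ⟨t, ht⟩ := CompactSpace.elim_nhds_subcover U hU
  refine ⟨(∑ x ∈ t, |C x|) + 1, by positivity, fun p v => ?_⟩
  have hp : p ∈ ⋃ x ∈ t, U x := by rw [ht]; exact mem_univ p
  obtain ⟨x, hx, hpx⟩ := mem_iUnion₂.1 hp
  have h0 : 0 ≤ h.inner p v v := by
    rcases eq_or_ne v 0 with rfl | hv
    · simp
    · exact (h.pos p v hv).le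
  refine (hC x p hpx v).trans (mul_le_mul_of_nonneg_right ?_ h0)
  linarith [le_abs_self (C x), Finset.single_le_sum (fun y _ => abs_nonneg (C y)) hx]

/-- Every metric on a compact manifold pulls back to a complete one along an exponential map. -/
theorem geoComplete_pullBack [CompactSpace M] (hE : ContMDiff (𝓡 3) (𝓡 3) ∞ E)
    (hbij : ∀ y, Function.Bijective (mfderiv (𝓡 3) (𝓡 3) E y))
    (hr : ∀ x v : E3, |inner ℝ x v| ≤ ‖x‖ * gNorm (pullBack g E) x v) (h : SmoothMetric M) :
    Hadamard.GeoComplete (pullBack h E) := by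
  obtain ⟨C, hC, hle⟩ := exists_comparison g h
  have hk : 0 < (Real.sqrt C)⁻¹ := inv_pos.2 (Real.sqrt_pos.2 hC)
  refine Hadamard.geoComplete_of_radial (isMetric_pullBack hE hbij h) hk fun x v => ?_
  have h1 := hr x v
  have h2 : gNorm (pullBack g E) x v ≤ Real.sqrt C * gNorm (pullBack h E) x v := by
    rw [gNorm, gNorm, ← Real.sqrt_mul hC.le]
    exact Real.sqrt_le_sqrt (hle (E x) _)
  rw [inv_mul_le_iff₀ (Real.sqrt_pos.2 hC)]
  calc |inner ℝ x v| ≤ ‖x‖ * gNorm (pullBack g E) x v := h1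
    _ ≤ ‖x‖ * (Real.sqrt C * gNorm (pullBack h E) x v) :=
        mul_le_mul_of_nonneg_left h2 (norm_nonneg x)
    _ = Real.sqrt C * (‖x‖ * gNorm (pullBack h E) x v) := by ring

/-- A continuous map commuting with a local diffeomorphism is smooth and preserves pullbacks. -/
theorem deck_isometric (hE : ContMDiff (𝓡 3) (𝓡 3) ∞ E)
    (hbij : ∀ y, Function.Bijective (mfderiv (𝓡 3) (𝓡 3) E y)) {φ : E3 → E3} (hφ : Continuous φ)
    (hEφ : ∀ y, E (φ y) = E y) (h : SmoothMetric M) :
    ContDiff ℝ ∞ φ ∧ ∀ y u v, pullBack h E (φ y) (fderiv ℝ φ y u) (fderiv ℝ φ y v) =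
      pullBack h E y u v := by
  have hP := isParam_pullBack hE hbij h
  have hsm : ContDiff ℝ ∞ φ := by
    refine contDiff_iff_contDiffAt.2 fun y => ?_
    have hq : E (φ y) ∈ (chartAt E3 (E y)).source := by rw [hEφ]; exact mem_chart_source E3 (E y)
    set ψ := coordChange E (E y) with hψ
    have hψφ : ContDiffAt ℝ ∞ ψ (φ y) := (hP.contDiffAt_coordChange (mem_univ _) hq).self_of_nhds
    have hb := hP.bijective_coordChange (mem_univ _) hq
    let L : E3 ≃L[ℝ] E3 := (LinearEquiv.ofBijective (fderiv ℝ ψ (φ y)).toLinearMap hb).toContinuousLinearEquiv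
    have hd : HasFDerivAt ψ (L : E3 →L[ℝ] E3) (φ y) :=
      (hψφ.differentiableAt (by simp)).hasFDerivAt.congr_fderiv (ContinuousLinearMap.ext fun u => rfl)
    have hloc := hψφ.to_localInverse hd (by simp)
    have hev := (hψφ.hasStrictFDerivAt' hd (by simp)).eventually_left_inverse
    set loc := hψφ.localInverse hd (by simp)
    have hψy : ContDiffAt ℝ ∞ ψ y :=
      (hP.contDiffAt_coordChange (mem_univ _) (mem_chart_source E3 (E y))).self_of_nhds
    have e : ψ (φ y) = ψ y := by simp [hψ, coordChange, hEφ]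
    rw [e] at hloc
    refine (hloc.comp y hψy).congr_of_eventuallyEq ?_
    filter_upwards [(hφ.tendsto y).eventually hev] with z hz
    show φ z = loc (ψ z)
    rw [show ψ z = ψ (φ z) by simp [hψ, coordChange, hEφ]]
    exact hz.symm
  refine ⟨hsm, fun y u v => ?_⟩
  have hc : ∀ w : E3, mfderiv (𝓡 3) (𝓡 3) E (φ y) (fderiv ℝ φ y w) =
      (mfderiv (𝓡 3) (𝓡 3) E y w : E3) := by
    intro w
    have h1 : HasMFDerivAt (𝓡 3) (𝓡 3) (E ∘ φ) y
        ((mfderiv (𝓡 3) (𝓡 3) E (φ y)).comp (fderiv ℝ φ y)) :=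
      (hE.mdifferentiableAt (by simp)).hasMFDerivAt.comp y
        ((hsm.differentiable (by simp) y).hasFDerivAt.hasMFDerivAt)
    rw [show E ∘ φ = E from funext hEφ] at h1
    exact (congrArg (fun L : E3 →L[ℝ] E3 => L w) h1.mfderiv).symm
  show (h.inner (E (φ y)) : E3 →L[ℝ] E3 →L[ℝ] ℝ) (mfderiv (𝓡 3) (𝓡 3) E (φ y) (fderiv ℝ φ y u))
      (mfderiv (𝓡 3) (𝓡 3) E (φ y) (fderiv ℝ φ y v)) = _
  rw [hc, hc, hEφ]
  rfl

/-- A metric of nonpositive curvature on a compact manifold gives a distance with the CN inequality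
on the exponential covering, preserved by all continuous bijections commuting with it. -/
theorem exists_deckDist [CompactSpace M] (hE : ContMDiff (𝓡 3) (𝓡 3) ∞ E)
    (hbij : ∀ y, Function.Bijective (mfderiv (𝓡 3) (𝓡 3) E y))
    (hr : ∀ x v : E3, |inner ℝ x v| ≤ ‖x‖ * gNorm (pullBack g E) x v) {h : SmoothMetric M} (hn : Nonpositive h) :
    ∃ d : E3 → E3 → ℝ, IsCN d ∧ Continuous (fun p : E3 × E3 => d p.1 p.2) ∧
      (∀ x y, d x y = 0 → x = y) ∧ (∀ x r, IsCompact {y | d x y ≤ r}) ∧
      ∀ φ : Equiv.Perm E3, Continuous φ → Continuous φ.symm → (∀ y, E (φ y) = E y) →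
        ∀ x y, d (φ x) (φ y) = d x y := by
  obtain ⟨d, h1, h2, h3, h4, h5⟩ := Hadamard.exists_dist (by norm_num)
    (isMetric_pullBack hE hbij h) (secBound_pullBack hE hbij hn)
    (geoComplete_pullBack hE hbij hr h)
  refine ⟨d, h1, h2, h3, h4, fun φ hφ hφi hEφ x y => ?_⟩
  obtain ⟨hs, hi⟩ := deck_isometric hE hbij hφ hEφ h
  have hEi : ∀ z, E (φ.symm z) = E z := fun z => by
    rw [← hEφ (φ.symm z), φ.apply_symm_apply]
  obtain ⟨hs', -⟩ := deck_isometric hE hbij hφi hEi h
  exact Hadamard.dist_eq_of_le h5 (hs.differentiable (by simp)) (hs'.differentiable (by simp))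
    φ.symm_apply_apply φ.apply_symm_apply hi x y

end

end Vale.Agent.P255
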