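import Mathlib
import Vale.Agent.P255.Cover.Pull

/-!
# Exponential maps of compact manifolds are coverings

A local diffeomorphism `E : ℝ^3 → M` onto a compact connected manifold whose radial component is
bounded by a metric of `M` lifts segments of charts, so it is a surjective covering map.
-/

open Set Filter Topology
open scoped Manifold ContDiff RealInnerProductSpace

set_option maxSynthPendingDepth 3

namespace Vale.Agent.P255

open Vale.Agent.P219 Vale.Agent.P219.Univ

noncomputable section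

variable {M : Type} [TopologicalSpace M] [ChartedSpace E3 M] [IsManifold (𝓡 3) ∞ M]

variable {g : SmoothMetric M} {E : E3 → M}

/-- The segment from `a` to `b`. -/
def seg (a b : E3) (t : ℝ) : E3 := a + t • (b - a)

@[simp] theorem seg_zero (a b : E3) : seg a b 0 = a := by simp [seg]

@[simp] theorem seg_one (a b : E3) : seg a b 1 = b := by simp [seg]

theorem seg_rev (a b : E3) (t : ℝ) : seg b a (1 - t) = seg a b t := by
  simp only [seg, sub_smul, one_smul, smul_sub]
  abel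

theorem seg_mem {c a b : E3} {r : ℝ} (ha : a ∈ Metric.closedBall c r)
    (hb : b ∈ Metric.closedBall c r) {t : ℝ} (ht : t ∈ Icc (0 : ℝ) 1) :
    seg a b t ∈ Metric.closedBall c r :=
  (convex_closedBall c r).add_smul_sub_mem ha hb ht

theorem exists_chartInverse (hE : ContMDiff (𝓡 3) (𝓡 3) ∞ E)
    (hbij : ∀ y, Function.Bijective (mfderiv (𝓡 3) (𝓡 3) E y)) (g : SmoothMetric M) {y : E3}
    {q : M} (hq : E y ∈ (chartAt E3 q).source) :
    ∃ φ : OpenPartialHomeomorph E3 E3, (φ : E3 → E3) = coordChange E q ∧ y ∈ φ.source ∧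
      ContDiffAt ℝ ∞ φ.symm (coordChange E q y) := by
  have hP := isParam_pullBack hE hbij g
  have hψ := (hP.contDiffAt_coordChange (mem_univ y) hq).self_of_nhds
  have hb := hP.bijective_coordChange (mem_univ y) hq
  let L : E3 ≃L[ℝ] E3 :=
    (LinearEquiv.ofBijective (fderiv ℝ (coordChange E q) y).toLinearMap hb).toContinuousLinearEquiv
  have hd : HasFDerivAt (coordChange E q) (L : E3 →L[ℝ] E3) y :=
    (hψ.differentiableAt (by simp)).hasFDerivAt.congr_fderiv (ContinuousLinearMap.ext fun u => rfl)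
  exact ⟨hψ.toOpenPartialHomeomorph _ hd (by simp), hψ.toOpenPartialHomeomorph_coe hd (by simp),
    hψ.mem_toOpenPartialHomeomorph_source hd (by simp), hψ.to_localInverse hd (by simp)⟩

/-- A local diffeomorphism is a local homeomorphism. -/
theorem isLocalHomeomorph_of_bijective (hE : ContMDiff (𝓡 3) (𝓡 3) ∞ E)
    (hbij : ∀ y, Function.Bijective (mfderiv (𝓡 3) (𝓡 3) E y)) (g : SmoothMetric M) :
    IsLocalHomeomorph E := by
  refine IsLocalHomeomorph.mk E fun y => ?_
  obtain ⟨φ, hφ, hy, -⟩ := exists_chartInverse hE hbij g (mem_chart_source E3 (E y))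
  have ho : IsOpen (E ⁻¹' (chartAt E3 (E y)).source) :=
    (chartAt E3 (E y)).open_source.preimage hE.continuous
  refine ⟨(φ.restrOpen _ ho).trans (chartAt E3 (E y)).symm, ?_, fun z hz => ?_⟩
  · have hyS : E y ∈ (chartAt E3 (E y)).source := mem_chart_source E3 (E y)
    simp [hy, hφ, coordChange, (chartAt E3 (E y)).map_source hyS]
  · simp at hz
    simp [hφ, coordChange, (chartAt E3 (E y)).left_inv hz.1.2]

variable (hE : ContMDiff (𝓡 3) (𝓡 3) ∞ E)
  (hbij : ∀ y, Function.Bijective (mfderiv (𝓡 3) (𝓡 3) E y))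
  (hr : ∀ x v : E3, |inner ℝ x v| ≤ ‖x‖ * gNorm (pullBack g E) x v)
include hE hbij hr

/-- Lifts of segments of a compact ball of a chart stay in a ball. -/
theorem norm_lift_le {q : M} {c : E3} {r A : ℝ}
    (hsub : Metric.closedBall c r ⊆ (extChartAt (𝓡 3) q).target) (hA0 : 0 ≤ A)
    (hA : ∀ z ∈ Metric.closedBall c r, ∀ u : E3, inChart g q z u u ≤ A * ‖u‖ ^ 2)
    {a b : E3} (ha : a ∈ Metric.closedBall c r) (hb : b ∈ Metric.closedBall c r)
    {T : ℝ} (hT : T ∈ Icc (0 : ℝ) 1) {Γ : ℝ → E3} (hΓ : ContinuousOn Γ (Icc 0 T))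
    (hlift : ∀ t ∈ Icc (0 : ℝ) T, E (Γ t) = (extChartAt (𝓡 3) q).symm (seg a b t)) :
    ‖Γ T‖ ≤ Real.sqrt (1 + ‖Γ 0‖ ^ 2) + Real.sqrt A * ‖b - a‖ := by
  set e := extChartAt (𝓡 3) q
  set K := Real.sqrt A * ‖b - a‖
  have hK : 0 ≤ K := by positivity
  have hself : ‖Γ 0‖ ≤ Real.sqrt (1 + ‖Γ 0‖ ^ 2) :=
    Real.le_sqrt_of_sq_le (by linarith)
  rcases hT.1.eq_or_lt with h0 | h0
  · rw [← h0]; linarith
  have hP := isParam_pullBack hE hbij g
  have hmem : ∀ t ∈ Icc (0 : ℝ) T, seg a b t ∈ e.target := fun t ht =>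
    hsub (seg_mem ha hb ⟨ht.1, ht.2.trans hT.2⟩)
  have hsrc : ∀ t ∈ Icc (0 : ℝ) T, E (Γ t) ∈ (chartAt E3 q).source := fun t ht => by
    rw [hlift t ht, ← extChartAt_source (𝓡 3)]
    exact e.map_target (hmem t ht)
  have hψ : ∀ t ∈ Icc (0 : ℝ) T, coordChange E q (Γ t) = seg a b t := fun t ht => by
    show e (E (Γ t)) = _
    rw [hlift t ht]
    exact e.right_inv (hmem t ht)
  have hline : ∀ t : ℝ, HasDerivAt (seg a b) (b - a) t := fun t => by
    have := ((hasDerivAt_id t).smul_const (b - a)).const_add a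
    simp only [id_eq, one_smul] at this
    exact this
  -- the lift is differentiable, with bounded speed
  have hdiff : ∀ t ∈ Icc (0 : ℝ) T, ∃ v, HasDerivWithinAt Γ v (Icc 0 T) t ∧
      gNorm (pullBack g E) (Γ t) v ≤ K := by
    intro t ht
    obtain ⟨φ, hφ, hy, hinv⟩ := exists_chartInverse hE hbij g (hsrc t ht)
    rw [hψ t ht] at hinv
    have hev : Γ =ᶠ[𝓝[Icc 0 T] t] fun s => φ.symm (seg a b s) := by
      filter_upwards [(hΓ t ht).eventually (φ.open_source.mem_nhds hy), self_mem_nhdsWithin]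
        with s hs hs'
      rw [← hψ s hs', ← hφ]
      exact (φ.left_inv hs).symm
    have hd : HasDerivWithinAt Γ (fderiv ℝ φ.symm (seg a b t) (b - a)) (Icc 0 T) t :=
      (((hinv.differentiableAt (by simp)).hasFDerivAt.comp_hasDerivAt t
        (hline t)).hasDerivWithinAt).congr_of_eventuallyEq hev (hev.self_of_nhdsWithin ht)
    refine ⟨_, hd, ?_⟩
    have hψd := ((hP.contDiffAt_coordChange (mem_univ (Γ t))
      (hsrc t ht)).self_of_nhds.differentiableAt (by simp)).hasFDerivAt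
    have h1 : HasDerivWithinAt (seg a b)
        (fderiv ℝ (coordChange E q) (Γ t) (fderiv ℝ φ.symm (seg a b t) (b - a))) (Icc 0 T) t :=
      (hψd.comp_hasDerivWithinAt t hd).congr (fun s hs => (hψ s hs).symm) (hψ t ht).symm
    have h2 := (uniqueDiffOn_Icc h0 t ht).eq_deriv _ h1 (hline t).hasDerivWithinAt
    have h3 := hP.apply_eq (mem_univ (Γ t)) (hsrc t ht)
      (fderiv ℝ φ.symm (seg a b t) (b - a)) (fderiv ℝ φ.symm (seg a b t) (b - a))
    rw [h2, hψ t ht] at h3
    rw [gNorm, ← h3]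
    refine (Real.sqrt_le_sqrt (hA _ (seg_mem ha hb ⟨ht.1, ht.2.trans hT.2⟩) _)).trans_eq ?_
    rw [Real.sqrt_mul hA0, Real.sqrt_sq (norm_nonneg _)]
  -- hence `√(1 + ‖Γ‖²)` grows at speed at most `K`
  choose! v hv hvK using hdiff
  set f : ℝ → ℝ := fun t => Real.sqrt (1 + ‖Γ t‖ ^ 2)
  have hf : ∀ t ∈ Icc (0 : ℝ) T,
      HasDerivWithinAt f (2 * inner ℝ (Γ t) (v t) / (2 * f t)) (Icc 0 T) t := fun t ht =>
    (((hv t ht).norm_sq).const_add 1).sqrt (by positivity)
  have hb' : ∀ t ∈ Icc (0 : ℝ) T, ‖2 * inner ℝ (Γ t) (v t) / (2 * f t)‖ ≤ K := fun t ht => by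
    have hpos : 0 < f t := Real.sqrt_pos.2 (by positivity)
    have hle : ‖Γ t‖ ≤ f t := Real.le_sqrt_of_sq_le (by linarith)
    rw [mul_div_mul_left _ _ (two_ne_zero' ℝ), Real.norm_eq_abs, abs_div, abs_of_pos hpos,
      div_le_iff₀ hpos]
    calc |inner ℝ (Γ t) (v t)| ≤ ‖Γ t‖ * gNorm (pullBack g E) (Γ t) (v t) := hr _ _
      _ ≤ ‖Γ t‖ * K := mul_le_mul_of_nonneg_left (hvK t ht) (norm_nonneg _)
      _ ≤ K * f t := by rw [mul_comm K]; exact mul_le_mul_of_nonneg_right hle hK
  have key := (convex_Icc (0 : ℝ) T).norm_image_sub_le_of_norm_hasDerivWithin_le hf hb'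
    (left_mem_Icc.2 hT.1) (right_mem_Icc.2 hT.1)
  have hT' : K * ‖T - 0‖ ≤ K := by
    rw [sub_zero, Real.norm_eq_abs, abs_of_nonneg hT.1]
    exact mul_le_of_le_one_right hK hT.2
  have : ‖Γ T‖ ≤ f T := Real.le_sqrt_of_sq_le (by linarith)
  have h4 := (le_abs_self (f T - f 0)).trans ((Real.norm_eq_abs _).symm.trans_le key)
  linarith

variable [T2Space M]

/-- Segments in a compact ball of a chart lift from any point. -/
theorem exists_segLift {q : M} {c : E3} {r : ℝ}
    (hsub : Metric.closedBall c r ⊆ (extChartAt (𝓡 3) q).target) {a b : E3}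
    (ha : a ∈ Metric.closedBall c r) (hb : b ∈ Metric.closedBall c r) {y : E3}
    (hy : E y = (extChartAt (𝓡 3) q).symm a) :
    ∃ Γ : C(unitInterval, E3), Γ 0 = y ∧
      ∀ t : unitInterval, E (Γ t) = (extChartAt (𝓡 3) q).symm (seg a b t) := by
  set e := extChartAt (𝓡 3) q
  obtain ⟨A, hA⟩ := (isCompact_closedBall c r).exists_bound_of_continuousOn
    (f := inChart g q) fun z hz =>
      ((isParam_chart g q).metricNear (hsub hz)).smooth.self_of_nhds.continuousAt.continuousWithinAt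
  have hA0 : 0 ≤ A := (norm_nonneg _).trans (hA a ha)
  have hA' : ∀ z ∈ Metric.closedBall c r, ∀ u : E3, inChart g q z u u ≤ A * ‖u‖ ^ 2 :=
    fun z hz u => by
      refine (le_abs_self _).trans ((ContinuousLinearMap.le_opNorm₂ (inChart g q z) u u).trans ?_)
      rw [mul_assoc, ← sq]
      exact mul_le_mul_of_nonneg_right (hA z hz) (by positivity)
  set σ : ℝ → M := fun t => e.symm (seg a b t)
  have hσ : ContinuousOn σ (Icc 0 1) :=
    (continuousOn_extChartAt_symm q).comp (by unfold seg; fun_prop)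
      fun t ht => hsub (seg_mem ha hb ht)
  set S := {T : ℝ | T ∈ Icc (0 : ℝ) 1 ∧ ∃ Γ : ℝ → E3, ContinuousOn Γ (Icc 0 T) ∧ Γ 0 = y ∧
    ∀ t ∈ Icc (0 : ℝ) T, E (Γ t) = σ t}
  have h0S : (0 : ℝ) ∈ S := ⟨left_mem_Icc.2 zero_le_one, fun _ => y, continuousOn_const, rfl,
    fun t ht => by rw [le_antisymm ht.2 ht.1]; simp [σ, hy]⟩
  have hbdd : BddAbove S := ⟨1, fun T hT => hT.1.2⟩
  set T := sSup S
  have hT : T ∈ Icc (0 : ℝ) 1 := ⟨le_csSup hbdd h0S, csSup_le ⟨0, h0S⟩ fun t ht => ht.1.2⟩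
  obtain ⟨u, -, hu, huS⟩ := exists_seq_tendsto_sSup ⟨0, h0S⟩ hbdd
  choose hu01 Γ hΓc hΓ0 hΓl using huS
  set R := Real.sqrt (1 + ‖y‖ ^ 2) + Real.sqrt A * ‖b - a‖
  obtain ⟨z, -, ν, hν, hz⟩ := (isCompact_closedBall (0 : E3) R).tendsto_subseq
    (x := fun n => Γ n (u n)) fun n => by
      rw [mem_closedBall_zero_iff]
      have := norm_lift_le hE hbij hr hsub hA0 hA' ha hb (hu01 n) (hΓc n) (hΓl n)
      rwa [hΓ0 n] at this
  have hlim : Tendsto (fun n => u (ν n)) atTop (𝓝[Icc (0 : ℝ) 1] T) :=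
    tendsto_nhdsWithin_iff.2 ⟨hu.comp hν.tendsto_atTop, Eventually.of_forall fun n => hu01 _⟩
  have hEz : E z = σ T := by
    refine tendsto_nhds_unique ((hE.continuous.tendsto z).comp hz) ?_
    refine ((hσ T hT).tendsto.comp hlim).congr fun n => ?_
    exact (hΓl (ν n) (u (ν n)) ⟨(hu01 _).1, le_rfl⟩).symm
  obtain ⟨φ, hzφ, hφE⟩ := isLocalHomeomorph_of_bijective hE hbij g z
  have htg : φ.target ∈ 𝓝 (σ T) := by
    rw [← hEz, hφE]
    exact φ.open_target.mem_nhds (φ.map_source hzφ)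
  obtain ⟨η, hη, hηt⟩ := Metric.mem_nhdsWithin_iff.1 ((hσ T hT).preimage_mem_nhdsWithin htg)
  have hev : ∀ᶠ n in atTop, Γ (ν n) (u (ν n)) ∈ φ.source ∧ T - η < u (ν n) :=
    (hz.eventually (φ.open_source.mem_nhds hzφ)).and
      ((hu.comp hν.tendsto_atTop).eventually (lt_mem_nhds (by linarith)))
  obtain ⟨n, hn1, hn2⟩ := hev.exists
  set t₀ := u (ν n)
  set Γ₀ := Γ (ν n)
  have ht0T : t₀ ≤ T := le_csSup hbdd ⟨hu01 _, Γ₀, hΓc _, hΓ0 _, hΓl _⟩
  set T' := min 1 (T + η / 2)
  have hTT' : T ≤ T' := le_min hT.2 (by linarith)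
  have hnear : ∀ t ∈ Icc t₀ T', σ t ∈ φ.target := fun t ht => hηt
    ⟨by
      rw [Metric.mem_ball, Real.dist_eq, abs_lt]
      constructor
      · linarith [ht.1]
      · linarith [ht.2.trans (min_le_right _ _)],
     (hu01 _).1.trans ht.1, ht.2.trans (min_le_left _ _)⟩
  set G : ℝ → E3 := fun t => if t ≤ t₀ then Γ₀ t else φ.symm (σ t)
  have hG1 : ∀ t ∈ Icc (0 : ℝ) t₀, G t = Γ₀ t := fun t ht => if_pos ht.2
  have hG2 : ∀ t ∈ Icc t₀ T', G t = φ.symm (σ t) := fun t ht => by
    rcases ht.1.eq_or_lt with h | h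
    · rw [← h, hG1 t₀ ⟨(hu01 _).1, le_rfl⟩, ← hΓl (ν n) t₀ ⟨(hu01 _).1, le_rfl⟩, hφE]
      exact (φ.left_inv hn1).symm
    · exact if_neg (not_le.2 h)
  have hT'S : T' ∈ S := by
    refine ⟨⟨le_trans hT.1 hTT', min_le_left _ _⟩, G, ?_, ?_, fun t ht => ?_⟩
    · rw [← Icc_union_Icc_eq_Icc (hu01 (ν n)).1 (ht0T.trans hTT')]
      exact ((hΓc _).congr hG1).union_of_isClosed
        ((φ.continuousOn_symm.comp (hσ.mono (Icc_subset_Icc (hu01 _).1 (min_le_left _ _)))
          hnear).congr hG2) isClosed_Icc isClosed_Icc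
    · rw [hG1 0 ⟨le_rfl, (hu01 _).1⟩]
      exact hΓ0 _
    · rcases le_total t t₀ with h | h
      · rw [hG1 t ⟨ht.1, h⟩]; exact hΓl _ t ⟨ht.1, h⟩
      · rw [hG2 t ⟨h, ht.2⟩, hφE]; exact φ.right_inv (hnear t ⟨h, ht.2⟩)
  have h1 : T' = 1 := by
    have := le_csSup hbdd hT'S
    rcases min_choice 1 (T + η / 2) with h | h
    · exact h
    · have : T + η / 2 ≤ T := by rw [← h]; exact this
      linarith
  rw [h1] at hT'S
  obtain ⟨-, Δ, hΔ, hΔ0, hΔl⟩ := hT'S
  exact ⟨⟨fun t => Δ t, hΔ.comp_continuous continuous_subtype_val fun t => t.2⟩, hΔ0,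
    fun t => hΔl t t.2⟩

/-- Each chart ball is evenly covered, and met by the image only if its centre is. -/
theorem evenlyCovered_nhd (q : M) :
    IsEvenlyCovered E q (E ⁻¹' {q}) ∧ ∃ U ∈ 𝓝 q, ∀ x, E x ∈ U → q ∈ range E := by
  set e := extChartAt (𝓡 3) q
  set c := e q
  obtain ⟨r', hr', hball⟩ := Metric.isOpen_iff.1 (isOpen_extChartAt_target (I := 𝓡 3) q) c
    (mem_extChartAt_target q)
  set r := r' / 2
  have hr0 : 0 < r := half_pos hr'
  have hsub : Metric.closedBall c r ⊆ e.target := fun z hz =>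
    hball ((Metric.mem_closedBall.1 hz).trans_lt (half_lt_self hr'))
  have hcen : c ∈ Metric.closedBall c r := Metric.mem_closedBall_self hr0.le
  have hsb := Metric.ball_subset_closedBall (x := c) (ε := r)
  have hqc : e.symm c = q := e.left_inv (mem_extChartAt_source q)
  set U := e.source ∩ e ⁻¹' Metric.ball c r
  have hU : IsOpen U := (continuousOn_extChartAt q).isOpen_inter_preimage
    (isOpen_extChartAt_source q) Metric.isOpen_ball
  have hqU : q ∈ U := ⟨mem_extChartAt_source q, Metric.mem_ball_self hr0⟩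
  have hlh := isLocalHomeomorph_of_bijective hE hbij g
  have hsep : IsSeparatedMap E := T2Space.isSeparatedMap E
  have huniq : ∀ {Γ Δ : C(unitInterval, E3)} {t₀ : unitInterval}, (∀ t, E (Γ t) = E (Δ t)) →
      Γ t₀ = Δ t₀ → ∀ t, Γ t = Δ t := fun {Γ Δ t₀} h h0 => congr_fun
    (hsep.eq_of_comp_eq hlh.isLocallyInjective Γ.continuous Δ.continuous (funext h) t₀ h0)
  let F : Set E3 := E ⁻¹' {q}
  have hΓ : ∀ (y : F) (z : U), ∃ Γ : C(unitInterval, E3), Γ 0 = (y : E3) ∧
      ∀ t : unitInterval, E (Γ t) = e.symm (seg c (e z) t) := fun y z =>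
    exists_segLift hE hbij hr hsub hcen (hsb z.2.2) ((y.2 : E y = q).trans hqc.symm)
  choose Γ hΓ0 hΓl using hΓ
  let σ : F → U → E3 := fun y z => Γ y z 1
  have hσE : ∀ y z, E (σ y z) = z := fun y z => by
    rw [hΓl y z 1]
    simp [e.left_inv z.2.1]
  have hσc : ∀ y, Continuous (σ y) := fun y => by
    have hmap : Continuous fun p : unitInterval × U => e.symm (seg c (e p.2) p.1) :=
      (continuousOn_extChartAt_symm q).comp_continuous
        (by
          have : Continuous fun z : U => e z :=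
            (continuousOn_extChartAt q).comp_continuous continuous_subtype_val fun z => z.2.1
          have h2 : Continuous fun p : unitInterval × U => e p.2 := this.comp continuous_snd
          unfold seg
          exact continuous_const.add
            ((continuous_subtype_val.comp continuous_fst).smul (h2.sub continuous_const)))
        fun p => hsub (seg_mem hcen (hsb p.2.2.2) p.1.2)
    have h := hlh.continuous_lift hsep ⟨_, hmap⟩ (g := fun p => Γ y p.2 p.1)
      (funext fun p => hΓl y p.2 p.1) (by simpa only [hΓ0] using continuous_const)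
      fun z => (Γ y z).continuous
    exact h.comp (continuous_const.prodMk continuous_id)
  -- every point over the ball is the end of a lift from the fibre
  have hback : ∀ x, E x ∈ U → ∃ Δ : C(unitInterval, E3), Δ 1 = x ∧
      ∀ t : unitInterval, E (Δ t) = e.symm (seg c (e (E x)) t) := fun x hx => by
    obtain ⟨Δ, hΔ0, hΔl⟩ := exists_segLift hE hbij hr hsub (hsb hx.2) hcen
      (y := x) (e.left_inv hx.1).symm
    refine ⟨Δ.comp ⟨unitInterval.symm, unitInterval.continuous_symm⟩, by simp [hΔ0], fun t => ?_⟩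
    show E (Δ (unitInterval.symm t)) = _
    rw [hΔl, unitInterval.coe_symm_eq, seg_rev]
  have hrange : ∀ x, E x ∈ U → q ∈ range E := fun x hx => by
    obtain ⟨Δ, -, hΔl⟩ := hback x hx
    exact ⟨Δ 0, by simp [hΔl, hqc]⟩
  refine ⟨?_, U, hU.mem_nhds hqU, hrange⟩
  have : DiscreteTopology F := (IsDiscrete.of_openPartialHomeomorph E subset_rfl fun x _ => by
    obtain ⟨φ, h1, h2⟩ := hlh x
    exact ⟨φ, h1, h2.symm⟩).1
  let S : U × F → E ⁻¹' U := fun p => ⟨σ p.2 p.1, by simp [hσE, p.1.2]⟩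
  have hS : Function.Bijective S := by
    constructor
    · rintro ⟨z, y⟩ ⟨z', y'⟩ h
      have h' : σ y z = σ y' z' := congrArg Subtype.val h
      obtain rfl : z = z' := Subtype.ext (by rw [← hσE y z, ← hσE y' z', h'])
      have h0 := huniq (fun t => (hΓl y z t).trans (hΓl y' z t).symm) h' 0
      rw [hΓ0, hΓ0] at h0
      exact Prod.ext rfl (Subtype.ext h0)
    · rintro ⟨x, hx⟩
      have hx' : E x ∈ U := hx
      obtain ⟨Δ, hΔ1, hΔl⟩ := hback x hx'
      let y : F := ⟨Δ 0, by simp [F, hΔl, hqc]⟩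
      refine ⟨(⟨E x, hx'⟩, y), Subtype.ext ?_⟩
      exact (huniq (Γ := Γ y ⟨E x, hx'⟩) (Δ := Δ) (t₀ := 0)
        (fun t => (hΓl y ⟨E x, hx'⟩ t).trans (hΔl t).symm) (hΓ0 y _) 1).trans hΔ1
  have hSc : Continuous S := by
    refine Continuous.subtype_mk ?_ _
    exact continuous_prod_of_discrete_right.2 hσc
  have hSo : IsOpenMap S := fun W hW => by
    have hopen : ∀ y, IsOpenMap (σ y) := fun y => by
      have h : IsLocalHomeomorph (E ∘ σ y) := by
        rw [show E ∘ σ y = Subtype.val from funext (hσE y)]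
        exact hU.isOpenEmbedding_subtypeVal.isLocalHomeomorph
      exact (h.of_comp hlh (hσc y)).isOpenMap
    have : S '' W = Subtype.val ⁻¹' ⋃ y, σ y '' ((fun z => (z, y)) ⁻¹' W) := by
      ext x
      simp only [mem_preimage, mem_iUnion, mem_image]
      constructor
      · rintro ⟨⟨z, y⟩, hw, rfl⟩
        exact ⟨y, z, hw, rfl⟩
      · rintro ⟨y, z, hw, h⟩
        exact ⟨(z, y), hw, Subtype.ext h⟩
    rw [this]
    exact (isOpen_iUnion fun y => hopen y _ (hW.preimage (by fun_prop))).preimage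
      continuous_subtype_val
  let H : (U × F) ≃ₜ (E ⁻¹' U) := (Equiv.ofBijective S hS).toHomeomorphOfContinuousOpen hSc hSo
  refine ⟨this, U, hqU, hU, hU.preimage hE.continuous, H.symm, fun x => ?_⟩
  have h : (S (H.symm x) : E3) = x := congrArg Subtype.val (H.apply_symm_apply x)
  conv_rhs => rw [← h]
  exact (hσE _ _).symm

/-- A local diffeomorphism with radial component bounded by the metric is a covering map. -/
theorem isCoveringMap_exp : IsCoveringMap E := fun q => (evenlyCovered_nhd hE hbij hr q).1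

theorem surjective_exp [ConnectedSpace M] : Function.Surjective E := by
  have hopen : IsOpen (range E) := (isLocalHomeomorph_of_bijective hE hbij g).isOpenMap.isOpen_range
  have hclosed : IsClosed (range E) := isClosed_iff_clusterPt.2 fun q hq => by
    obtain ⟨-, U, hU, h⟩ := evenlyCovered_nhd hE hbij hr q
    obtain ⟨_, h1, x, rfl⟩ := clusterPt_iff_nonempty.1 hq hU (mem_principal_self _)
    exact h x h1
  exact range_eq_univ.1 (IsClopen.eq_univ ⟨hclosed, hopen⟩ (range_nonempty E))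

end

end Vale.Agent.P255
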