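import Vale.Agent.P219.Univ.Geo.Jacobi

/-!
# The variation field of rays which are geodesics

A map whose rays are geodesics near `s • v`: the derivative of the rays in the direction `w`
solves the Jacobi equation, and its product with the velocity grows at the rate `⟪v, w⟫`.
-/

open scoped ContDiff Topology RealInnerProductSpace
open Filter

set_option maxSynthPendingDepth 3

namespace Vale.Agent.P255.Cover

open Vale.Agent.P219 Vale.Agent.P219.Univ

noncomputable section

variable {n : ℕ} {F : Space n → Space n} {G : MetricField n} {v w : Space n} {s : ℝ}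

/-- The derivative of the rays in the direction `w`. -/
def rayVar (F : Space n → Space n) (v w : Space n) (r : ℝ) : Space n := fderiv ℝ F (r • v) (r • w)

/-- Its first derivative. -/
def rayVar' (F : Space n → Space n) (v w : Space n) (r : ℝ) : Space n :=
  fderiv ℝ (fderiv ℝ F) (r • v) v (r • w) + fderiv ℝ F (r • v) w

section

variable (hF : ContDiffAt ℝ ∞ F (s • v))
include hF

theorem D_hasFDerivAt :
    HasFDerivAt (fderiv ℝ F) (fderiv ℝ (fderiv ℝ F) (s • v)) (s • v) :=
  ((hF.fderiv_right (m := ∞) le_rfl).differentiableAt (by simp)).hasFDerivAt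

theorem D2_hasFDerivAt :
    HasFDerivAt (fderiv ℝ (fderiv ℝ F)) (fderiv ℝ (fderiv ℝ (fderiv ℝ F)) (s • v)) (s • v) :=
  (((hF.fderiv_right (m := ∞) le_rfl).fderiv_right (m := ∞) le_rfl).differentiableAt
    (by simp)).hasFDerivAt

theorem D2_symm (a b : Space n) :
    fderiv ℝ (fderiv ℝ F) (s • v) a b = fderiv ℝ (fderiv ℝ F) (s • v) b a :=
  (hF.isSymmSndFDerivAt (by simp; exact WithTop.coe_le_coe.2 le_top)).eq a b

theorem D3_symm₁ (a b c : Space n) :
    fderiv ℝ (fderiv ℝ (fderiv ℝ F)) (s • v) a b c =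
      fderiv ℝ (fderiv ℝ (fderiv ℝ F)) (s • v) b a c := by
  rw [((hF.fderiv_right (m := ∞) le_rfl).isSymmSndFDerivAt
    (by simp; exact WithTop.coe_le_coe.2 le_top)).eq a b]

theorem D3_symm₂ (a b c : Space n) :
    fderiv ℝ (fderiv ℝ (fderiv ℝ F)) (s • v) a b c =
      fderiv ℝ (fderiv ℝ (fderiv ℝ F)) (s • v) a c b := by
  have h2 := D2_hasFDerivAt hF
  have l : ∀ b c : Space n, HasFDerivAt (fun q => fderiv ℝ (fderiv ℝ F) q b c)
      (((fderiv ℝ (fderiv ℝ (fderiv ℝ F)) (s • v)).flip b).flip c) (s • v) := fun b c => by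
    have := (h2.clm_apply (hasFDerivAt_const b (s • v))).clm_apply (hasFDerivAt_const c (s • v))
    refine this.congr_fderiv ?_
    ext z
    simp
  have hev : (fun q => fderiv ℝ (fderiv ℝ F) q c b) =ᶠ[𝓝 (s • v)]
      fun q => fderiv ℝ (fderiv ℝ F) q b c := by
    filter_upwards [(hF.of_le (show (2 : WithTop ℕ∞) ≤ ∞ from WithTop.coe_le_coe.2 le_top)).eventually
      (by simp)] with q hq
    exact (hq.isSymmSndFDerivAt (by simp)).eq c b
  exact congrFun (congrArg DFunLike.coe ((l b c).unique ((l c b).congr_of_eventuallyEq hev.symm))) a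

theorem hasDerivAt_ray' : HasDerivAt (fun r : ℝ => F (r • v)) (fderiv ℝ F (s • v) v) s :=
  (hF.differentiableAt (by simp)).hasFDerivAt.comp_hasDerivAt s (Geo.hasDerivAt_ray v s)

theorem hasDerivAt_D_ray :
    HasDerivAt (fun r : ℝ => fderiv ℝ F (r • v)) (fderiv ℝ (fderiv ℝ F) (s • v) v) s :=
  HasFDerivAt.comp_hasDerivAt (E := Space n →L[ℝ] Space n) s (D_hasFDerivAt hF)
    (Geo.hasDerivAt_ray v s)

theorem hasDerivAt_vel :
    HasDerivAt (fun r : ℝ => fderiv ℝ F (r • v) v) (fderiv ℝ (fderiv ℝ F) (s • v) v v) s :=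
  ((hasDerivAt_D_ray hF).clm_apply (hasDerivAt_const s v)).congr_deriv
    (by rw [map_zero, add_zero])

theorem hasDerivAt_rayVar : HasDerivAt (rayVar F v w) (rayVar' F v w s) s :=
  (hasDerivAt_D_ray hF).clm_apply (Geo.hasDerivAt_ray w s)

theorem hasDerivAt_rayVar' :
    HasDerivAt (rayVar' F v w)
      (fderiv ℝ (fderiv ℝ (fderiv ℝ F)) (s • v) v v (s • w) +
        (2 : ℝ) • fderiv ℝ (fderiv ℝ F) (s • v) v w) s := by
  have h1 : HasDerivAt (fun r : ℝ => fderiv ℝ (fderiv ℝ F) (r • v))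
      (fderiv ℝ (fderiv ℝ (fderiv ℝ F)) (s • v) v) s :=
    HasFDerivAt.comp_hasDerivAt (E := Space n →L[ℝ] Space n →L[ℝ] Space n) s
      (D2_hasFDerivAt hF) (Geo.hasDerivAt_ray v s)
  have h2 : HasDerivAt (fun r : ℝ => fderiv ℝ (fderiv ℝ F) (r • v) v)
      (fderiv ℝ (fderiv ℝ (fderiv ℝ F)) (s • v) v v) s :=
    (h1.clm_apply (hasDerivAt_const s v)).congr_deriv (by rw [map_zero, add_zero])
  have h3 := (hasDerivAt_D_ray hF).clm_apply (hasDerivAt_const s w)
  refine ((h2.clm_apply (Geo.hasDerivAt_ray w s)).add h3).congr_deriv ?_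
  simp [two_smul, add_assoc]

/-- The geodesic equation and the constancy of speed, differentiated in the initial velocity. -/
theorem var_eqs (hG : IsMetric G)
    (hgeo : ∀ᶠ u in 𝓝 v, fderiv ℝ (fderiv ℝ F) (s • u) u u =
        -gam G (F (s • u)) (fderiv ℝ F (s • u) u) (fderiv ℝ F (s • u) u) ∧
      G (F (s • u)) (fderiv ℝ F (s • u) u) (fderiv ℝ F (s • u) u) = inner ℝ u u) :
    fderiv ℝ (fderiv ℝ (fderiv ℝ F)) (s • v) v v (s • w) +
        (2 : ℝ) • fderiv ℝ (fderiv ℝ F) (s • v) v w =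
      -(fderiv ℝ (fun y => gam G y (fderiv ℝ F (s • v) v) (fderiv ℝ F (s • v) v)) (F (s • v))
          (rayVar F v w s) +
        (2 : ℝ) • gam G (F (s • v)) (fderiv ℝ F (s • v) v) (rayVar' F v w s)) ∧
      G (F (s • v)) (fderiv ℝ F (s • v) v)
        (rayVar' F v w s + gam G (F (s • v)) (fderiv ℝ F (s • v) v) (rayVar F v w s)) =
        inner ℝ v w := by
  set P : ℝ → Space n := fun e => s • (v + e • w)
  have hP : HasDerivAt P (s • w) 0 := (Geo.hasDerivAt_line v w 0).const_smul s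
  have hP0 : s • v = P 0 := by simp [P]
  have hu : HasDerivAt (fun e : ℝ => v + e • w) w 0 := Geo.hasDerivAt_line v w 0
  have hev : ∀ᶠ e in 𝓝 (0 : ℝ), fderiv ℝ (fderiv ℝ F) (P e) (v + e • w) (v + e • w) =
        -gam G (F (P e)) (fderiv ℝ F (P e) (v + e • w)) (fderiv ℝ F (P e) (v + e • w)) ∧
      G (F (P e)) (fderiv ℝ F (P e) (v + e • w)) (fderiv ℝ F (P e) (v + e • w)) =
        inner ℝ (v + e • w) (v + e • w) := by
    have : Tendsto (fun e : ℝ => v + e • w) (𝓝 0) (𝓝 v) := by simpa using hu.continuousAt.tendsto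
    exact this.eventually hgeo
  have hγ : HasDerivAt (fun e : ℝ => F (P e)) (rayVar F v w s) 0 :=
    (hF.differentiableAt (by simp)).hasFDerivAt.comp_hasDerivAt_of_eq (0 : ℝ) hP hP0
  have ha : HasDerivAt (fun e : ℝ => fderiv ℝ F (P e) (v + e • w)) (rayVar' F v w s) 0 :=
    (((D_hasFDerivAt hF).comp_hasDerivAt_of_eq (0 : ℝ) hP hP0).clm_apply hu).congr_deriv (by
      simp only [Function.comp_apply, zero_smul, add_zero, ← hP0, rayVar', map_smul, smul_apply]
      rw [D2_symm hF w v])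
  constructor
  · have hL1 : HasDerivAt (fun e : ℝ => fderiv ℝ (fderiv ℝ F) (P e))
        (fderiv ℝ (fderiv ℝ (fderiv ℝ F)) (s • v) (s • w)) 0 :=
      HasFDerivAt.comp_hasDerivAt_of_eq (E := Space n →L[ℝ] Space n →L[ℝ] Space n) (0 : ℝ)
        (D2_hasFDerivAt hF) hP hP0
    have hL2 : HasDerivAt (fun e : ℝ => fderiv ℝ (fderiv ℝ F) (P e) (v + e • w))
        (fderiv ℝ (fderiv ℝ (fderiv ℝ F)) (s • v) (s • w) (v + (0 : ℝ) • w) +
          fderiv ℝ (fderiv ℝ F) (P 0) w) 0 := hL1.clm_apply hu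
    have hL := hL2.clm_apply hu
    have hR := (Geo.hasDerivAt_gam hG hγ ha ha).neg
    have := hL.unique (hR.congr_of_eventuallyEq (hev.mono fun e he => he.1))
    simp only [add_apply, zero_smul, add_zero, ← hP0, map_smul, smul_apply] at this
    rw [D3_symm₁ hF w v v, D3_symm₂ hF v w v, D2_symm hF w v,
      gam_symm hG (F (s • v)) (rayVar' F v w s)] at this
    simp only [map_smul] at this ⊢
    linear_combination (norm := module) this
  · have h1 := Geo.hasDerivAt_g hG hγ ha ha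
    have h2 := (hu.inner ℝ hu).congr_of_eventuallyEq (hev.mono fun e he => he.2)
    have := h1.unique h2
    simp only [zero_smul, add_zero, ← hP0] at this
    rw [gam_symm hG (F (s • v)) (rayVar F v w s), hG.symm (F (s • v)) (rayVar' F v w s + _),
      real_inner_comm v w] at this
    linarith

/-- The variation field solves the Jacobi equation; the Gauss identity holds. -/
theorem variation (hG : IsMetric G)
    (hgeo : ∀ᶠ u in 𝓝 v, fderiv ℝ (fderiv ℝ F) (s • u) u u =
        -gam G (F (s • u)) (fderiv ℝ F (s • u) u) (fderiv ℝ F (s • u) u) ∧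
      G (F (s • u)) (fderiv ℝ F (s • u) u) (fderiv ℝ F (s • u) u) = inner ℝ u u) :
    (∃ Z, HasDerivAt (fun r => rayVar' F v w r +
          gam G (F (r • v)) (fderiv ℝ F (r • v) v) (rayVar F v w r)) Z s ∧
        Z + gam G (F (s • v)) (fderiv ℝ F (s • v) v)
            (rayVar' F v w s + gam G (F (s • v)) (fderiv ℝ F (s • v) v) (rayVar F v w s)) +
          riem G (F (s • v)) (rayVar F v w s) (fderiv ℝ F (s • v) v) (fderiv ℝ F (s • v) v) = 0) ∧
      HasDerivAt (fun r => G (F (r • v)) (fderiv ℝ F (r • v) v) (rayVar F v w r))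
        (inner ℝ v w) s := by
  obtain ⟨e1, e2⟩ := var_eqs (w := w) hF hG hgeo
  have hB := hgeo.self_of_nhds.1
  refine ⟨⟨_, (hasDerivAt_rayVar' hF).add (Geo.hasDerivAt_gam hG (hasDerivAt_ray' hF)
    (hasDerivAt_vel hF) (hasDerivAt_rayVar hF)), ?_⟩, ?_⟩
  · simp only [riem, hB, Geo.gam_add₂]
    rw [show gam G (F (s • v)) (-gam G (F (s • v)) (fderiv ℝ F (s • v) v) (fderiv ℝ F (s • v) v))
      (rayVar F v w s) = -gam G (F (s • v)) (gam G (F (s • v)) (fderiv ℝ F (s • v) v)
        (fderiv ℝ F (s • v) v)) (rayVar F v w s) by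
          rw [← neg_one_smul ℝ (gam G (F (s • v)) (fderiv ℝ F (s • v) v) (fderiv ℝ F (s • v) v)),
            Geo.gam_smul₁, neg_one_smul],
      gam_symm hG (F (s • v)) (gam G (F (s • v)) (fderiv ℝ F (s • v) v) (fderiv ℝ F (s • v) v)),
      show (fun y => gam G y (rayVar F v w s) (fderiv ℝ F (s • v) v)) =
        fun y => gam G y (fderiv ℝ F (s • v) v) (rayVar F v w s) from
          funext fun y => gam_symm hG y _ _,
      gam_symm hG (F (s • v)) (rayVar F v w s) (fderiv ℝ F (s • v) v)]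
    linear_combination (norm := module) e1
  · refine (Geo.hasDerivAt_g hG (hasDerivAt_ray' hF) (hasDerivAt_vel hF)
      (hasDerivAt_rayVar hF)).congr_deriv ?_
    rw [hB, neg_add_cancel, map_zero, zero_apply, zero_add]
    exact e2

end

end

end Vale.Agent.P255.Cover
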