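import Vale.Agent.P255.Cover.Geodesic
import Vale.Agent.P255.Cover.Variation
import Vale.Agent.P255.Cover.Pull
import Vale.Agent.P219.Six.Bridge.Frame

/-!
# The exponential map of a compact manifold without conjugate points

It is smooth, its differential is bijective, it carries the lines through the origin to all the
geodesics of its centre, and its radial component is bounded by the metric.
-/

open scoped Manifold ContDiff Topology RealInnerProductSpace
open Filter Set

set_option maxSynthPendingDepth 3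

namespace Vale.Agent.P255.Cover

open Vale.Agent.P219 Vale.Agent.P219.Univ

noncomputable section

variable {M : Type} [TopologicalSpace M] [ChartedSpace E3 M] [IsManifold (𝓡 3) ∞ M] [T2Space M]
  [CompactSpace M] {g : SmoothMetric M} {p : M} {L : E3 →L[ℝ] E3}

/-- The exponential map at `p`, precomposed with `L`. -/
def expMap (g : SmoothMetric M) (p : M) (L : E3 →L[ℝ] E3) (v : E3) : M := geo g p (L v) 1

theorem expMap_smul (v : E3) (t : ℝ) : expMap g p L (t • v) = geo g p (L v) t := by
  rw [expMap, map_smul, geo_smul]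
  simp

theorem expMap_ray (v : E3) : (fun t : ℝ => expMap g p L (t • v)) = geo g p (L v) :=
  funext (expMap_smul v)

theorem expMap_zero : expMap g p L 0 = p := by
  have := expMap_smul (g := g) (p := p) (L := L) 0 0
  rwa [zero_smul, geo_zero] at this

theorem isGeodesic_ray (v : E3) : IsGeodesic g (fun t : ℝ => expMap g p L (t • v)) := by
  rw [expMap_ray]
  exact isGeodesic_geo g p _

theorem contDiffAt_expMap_chart {x : E3} {q : M}
    (hq : expMap g p L x ∈ (chartAt E3 q).source) :
    ContDiffAt ℝ ∞ (coordChange (expMap g p L) q) x :=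
  (contDiffAt_fst.comp (L x) ((smoothState g p (L x)).smooth q hq)).comp x L.contDiff.contDiffAt

theorem contMDiff_expMap : ContMDiff (𝓡 3) (𝓡 3) ∞ (expMap g p L) := by
  intro x
  refine contMDiffAt_iff_target.2 ⟨?_, ?_⟩
  · exact ContinuousAt.comp (g := fun w => geo g p w 1) (smoothState g p (L x)).cont
      L.continuous.continuousAt
  · exact (contDiffAt_expMap_chart (mem_chart_source E3 _)).contMDiffAt

theorem eventually_source {x : E3} {q : M} (hq : expMap g p L x ∈ (chartAt E3 q).source) :
    ∀ᶠ y in 𝓝 x, expMap g p L y ∈ (chartAt E3 q).source :=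
  contMDiff_expMap.continuous.continuousAt.preimage_mem_nhds
    ((chartAt E3 q).open_source.mem_nhds hq)

theorem fderiv_chart {x : E3} {q : M} (hq : expMap g p L x ∈ (chartAt E3 q).source) (u : E3) :
    fderiv ℝ (coordChange (expMap g p L) q) x u =
      mfderiv (𝓡 3) (𝓡 3) (extChartAt (𝓡 3) q) (expMap g p L x)
        (mfderiv (𝓡 3) (𝓡 3) (expMap g p L) x u) := by
  rw [← mfderiv_eq_fderiv]
  show mfderiv (𝓡 3) (𝓡 3) (extChartAt (𝓡 3) q ∘ expMap g p L) x u = _
  rw [mfderiv_comp x (mdifferentiableAt_extChartAt hq)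
    ((contMDiff_expMap x).mdifferentiableAt (by simp))]
  rfl

/-- The differential of the chart expression along a ray is the velocity. -/
theorem fderiv_ray {s : ℝ} {u : E3} {q : M}
    (hq : expMap g p L (s • u) ∈ (chartAt E3 q).source) :
    fderiv ℝ (coordChange (expMap g p L) q) (s • u) u = deriv (readAt q (geo g p (L u))) s := by
  have h : readAt q (geo g p (L u)) = fun r : ℝ => coordChange (expMap g p L) q (r • u) :=
    funext fun r => by simp [readAt, coordChange, expMap_smul]
  rw [h]
  exact (hasDerivAt_ray' (contDiffAt_expMap_chart hq)).deriv.symm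

theorem D2_ray {s : ℝ} {u : E3} {q : M} (hq : expMap g p L (s • u) ∈ (chartAt E3 q).source) :
    fderiv ℝ (fderiv ℝ (coordChange (expMap g p L) q)) (s • u) u u =
      deriv (deriv (readAt q (geo g p (L u)))) s := by
  have h1 : deriv (readAt q (geo g p (L u))) =ᶠ[𝓝 s]
      fun r => fderiv ℝ (coordChange (expMap g p L) q) (r • u) u := by
    have : Tendsto (fun r : ℝ => r • u) (𝓝 s) (𝓝 (s • u)) :=
      (continuous_id.smul continuous_const).tendsto s
    filter_upwards [this.eventually (eventually_source hq)] with r hr using (fderiv_ray hr).symm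
  rw [h1.deriv_eq]
  exact (hasDerivAt_vel (contDiffAt_expMap_chart hq)).deriv.symm

/-- The hypotheses of the variation lemma. -/
theorem ray_hyp (hL : ∀ u, gAt g p (L u) (L u) = inner ℝ u u) {s : ℝ} {v : E3} {q : M}
    (hq : expMap g p L (s • v) ∈ (chartAt E3 q).source) {G : MetricField 3}
    (hG : G =ᶠ[𝓝 (coordChange (expMap g p L) q (s • v))] inChart g q) :
    ∀ᶠ u in 𝓝 v, fderiv ℝ (fderiv ℝ (coordChange (expMap g p L) q)) (s • u) u u =
        -gam G (coordChange (expMap g p L) q (s • u))
          (fderiv ℝ (coordChange (expMap g p L) q) (s • u) u)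
          (fderiv ℝ (coordChange (expMap g p L) q) (s • u) u) ∧
      G (coordChange (expMap g p L) q (s • u))
          (fderiv ℝ (coordChange (expMap g p L) q) (s • u) u)
          (fderiv ℝ (coordChange (expMap g p L) q) (s • u) u) = inner ℝ u u := by
  have ht : Tendsto (fun u : E3 => s • u) (𝓝 v) (𝓝 (s • v)) :=
    (continuous_const_smul s).tendsto v
  filter_upwards [ht.eventually (eventually_source hq),
    ht.eventually ((contDiffAt_expMap_chart hq).continuousAt.eventually hG.eventuallyEq_nhds)]
    with u hu hGu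
  have hy : coordChange (expMap g p L) q (s • u) = readAt q (geo g p (L u)) s := by
    simp [readAt, coordChange, expMap_smul]
  have hgu : geo g p (L u) s ∈ (chartAt E3 q).source := by rwa [← expMap_smul]
  rw [hy] at hGu ⊢
  rw [fderiv_ray hu, D2_ray hu, gam_congr hGu, hGu.eq_of_nhds]
  refine ⟨((geoOn_geo g p (L u)).eq_readAt isOpen_univ (mem_univ s) hgu).2.deriv, ?_⟩
  rw [← hL u, ← speed_geo g p (L u) s, velAt, deriv_readAt g (Eventually.of_forall fun r =>
    (geoOn_geo g p (L u)).smooth r (mem_univ r)) hgu]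
  exact (gAt_toOwn g hgu _ _).symm

/-- The variation field of the ray through `v` in the direction `w`. -/
def varField (g : SmoothMetric M) (p : M) (L : E3 →L[ℝ] E3) (v w : E3) (s : ℝ) :
    TangentSpace (𝓡 3) (expMap g p L (s • v)) :=
  mfderiv (𝓡 3) (𝓡 3) (expMap g p L) (s • v) (s • w)

theorem fieldAt_varField (v w : E3) (t : ℝ) :
    ∀ᶠ s in 𝓝 t, fieldAt (fun r : ℝ => expMap g p L (r • v)) (varField g p L v w) t s =
      rayVar (coordChange (expMap g p L) (expMap g p L (t • v))) v w s := by
  have : Tendsto (fun r : ℝ => r • v) (𝓝 t) (𝓝 (t • v)) :=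
    (continuous_id.smul continuous_const).tendsto t
  filter_upwards [this.eventually (eventually_source (mem_chart_source E3 (expMap g p L (t • v))))]
    with s hs
  exact (fderiv_chart hs (s • w)).symm

theorem curveAt_ray (v : E3) (t : ℝ) : curveAt (fun r : ℝ => expMap g p L (r • v)) t =
    fun r => coordChange (expMap g p L) (expMap g p L (t • v)) (r • v) := rfl

/-- The variation field is a Jacobi field. -/
theorem isJacobi_varField (hL : ∀ u, gAt g p (L u) (L u) = inner ℝ u u) (v w : E3) :
    IsJacobi g (fun r : ℝ => expMap g p L (r • v)) (varField g p L v w) := by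
  intro t
  set γ := fun r : ℝ => expMap g p L (r • v)
  set q := expMap g p L (t • v)
  set F := coordChange (expMap g p L) q with hFdef
  have hq : expMap g p L (t • v) ∈ (chartAt E3 q).source := mem_chart_source E3 q
  obtain ⟨G, hG, hGe⟩ := ((isParam_chart g q).metricNear
    (mem_extChartAt_target (I := 𝓡 3) q)).extend
  have hFt : F (t • v) = extChartAt (𝓡 3) q q := rfl
  have hGe' : G =ᶠ[𝓝 (F (t • v))] inChart g q := hFt ▸ hGe
  have hF := contDiffAt_expMap_chart (g := g) (p := p) (L := L) hq
  obtain ⟨⟨Z, hZ, hZ0⟩, -⟩ := variation (w := w) hF hG (ray_hyp hL hq hGe')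
  have hfield := fieldAt_varField (g := g) (p := p) (L := L) v w t
  have hsm : ContDiffAt ℝ ∞ (rayVar F v w) t :=
    (((contDiffAt_D hF).comp t (contDiffAt_id.smul contDiffAt_const))).clm_apply
      (contDiffAt_id.smul contDiffAt_const)
  refine ⟨(hsm.congr_of_eventuallyEq hfield).of_le
    (WithTop.coe_le_coe.2 le_top), ?_⟩
  have hray : Tendsto (fun r : ℝ => r • v) (𝓝 t) (𝓝 (t • v)) :=
    (continuous_id.smul continuous_const).tendsto t
  have hev : ∀ᶠ r in 𝓝 t, covAt g γ (varField g p L v w) t r = rayVar' F v w r +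
      gam G (F (r • v)) (fderiv ℝ F (r • v) v) (rayVar F v w r) := by
    filter_upwards [hray.eventually (eventually_source hq),
      hfield.eventually_nhds,
      hray.eventually (hF.continuousAt.eventually hGe'.eventuallyEq_nhds)] with r hr hfr hGr
    have hFr := contDiffAt_expMap_chart (g := g) (p := p) (L := L) hr
    rw [covAt, (EventuallyEq.deriv_eq hfr).trans (hasDerivAt_rayVar hFr).deriv,
      hfr.self_of_nhds, curveAt_ray, (hasDerivAt_ray' hFr).deriv, gam_congr hGr]
  rw [EventuallyEq.deriv_eq hev, hev.self_of_nhds, hZ.deriv, hfield.self_of_nhds, curveAt_ray,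
    (hasDerivAt_ray' hF).deriv, ← gam_congr hGe', ← riem_congr hGe']
  exact hZ0

/-- A kernel vector of the differential gives a Jacobi field vanishing twice. -/
theorem kernel_eq_zero (hnc : NoConjugatePoints g)
    (hL : ∀ u, gAt g p (L u) (L u) = inner ℝ u u) (v w : E3)
    (hw : mfderiv (𝓡 3) (𝓡 3) (expMap g p L) v w = 0) : w = 0 := by
  have h0 : varField g p L v w 0 = 0 := by
    show mfderiv (𝓡 3) (𝓡 3) (expMap g p L) ((0 : ℝ) • v) ((0 : ℝ) • w) = 0
    rw [zero_smul ℝ w]
    exact map_zero _
  have h1 : varField g p L v w 1 = 0 := by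
    show mfderiv (𝓡 3) (𝓡 3) (expMap g p L) ((1 : ℝ) • v) ((1 : ℝ) • w) = 0
    rw [one_smul ℝ v, one_smul ℝ w]
    exact hw
  have hz := hnc _ (varField g p L v w) 0 1 (isGeodesic_ray v) (isJacobi_varField hL v w)
    zero_lt_one h0 h1
  set F := coordChange (expMap g p L) p
  have hp : expMap g p L ((0 : ℝ) • v) ∈ (chartAt E3 p).source := by
    rw [zero_smul, expMap_zero]; exact mem_chart_source E3 p
  have hray : Tendsto (fun r : ℝ => r • v) (𝓝 0) (𝓝 ((0 : ℝ) • v)) :=
    (continuous_id.smul continuous_const).tendsto 0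
  have hev : ∀ᶠ r in 𝓝[≠] (0 : ℝ), fderiv ℝ F (r • v) w = 0 := by
    filter_upwards [nhdsWithin_le_nhds (hray.eventually (eventually_source hp)),
      self_mem_nhdsWithin] with r hr hr0
    have h := fderiv_chart hr (r • w)
    rw [show mfderiv (𝓡 3) (𝓡 3) (expMap g p L) (r • v) (r • w) = 0 from hz r, map_zero,
      map_smul] at h
    exact (smul_eq_zero.1 h).resolve_left hr0
  have hcont : ContinuousAt (fun r : ℝ => fderiv ℝ F (r • v) w) 0 :=
    (((contDiffAt_D (contDiffAt_expMap_chart hp)).continuousAt.comp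
      (f := fun r : ℝ => r • v) hray).clm_apply continuousAt_const)
  have hFv : fderiv ℝ F ((0 : ℝ) • v) w = 0 :=
    tendsto_nhds_unique (hcont.tendsto.mono_left nhdsWithin_le_nhds)
      (tendsto_const_nhds.congr' (hev.mono fun r hr => hr.symm))
  have hFw : fderiv ℝ F ((0 : ℝ) • w) w = 0 := by
    rw [zero_smul] at hFv ⊢
    exact hFv
  have hw0 : expMap g p L ((0 : ℝ) • w) ∈ (chartAt E3 p).source := by
    rw [zero_smul, expMap_zero]; exact mem_chart_source E3 p
  have hLw : L w = 0 := by
    have hv := velAt_geo g p (L w)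
    rw [velAt, curveAt_eq_readAt, geo_zero] at hv
    rw [← hv, ← fderiv_ray hw0]
    exact hFw
  have := hL w
  rw [hLw, map_zero] at this
  exact inner_self_eq_zero.1 this.symm

theorem injective_mfderiv (hnc : NoConjugatePoints g)
    (hL : ∀ u, gAt g p (L u) (L u) = inner ℝ u u) (v : E3) :
    Function.Injective (mfderiv (𝓡 3) (𝓡 3) (expMap g p L) v) :=
  (injective_iff_map_eq_zero _).2 fun w hw => kernel_eq_zero hnc hL v w hw

theorem bijective_mfderiv (hnc : NoConjugatePoints g)
    (hL : ∀ u, gAt g p (L u) (L u) = inner ℝ u u) (v : E3) :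
    Function.Bijective (mfderiv (𝓡 3) (𝓡 3) (expMap g p L) v) :=
  ⟨injective_mfderiv hnc hL v,
    let T : E3 →L[ℝ] E3 := mfderiv (𝓡 3) (𝓡 3) (expMap g p L) v
    LinearMap.surjective_of_injective (f := T.toLinearMap) (injective_mfderiv hnc hL v)⟩

/-- The Gauss lemma. -/
theorem gauss (hnc : NoConjugatePoints g)
    (hL : ∀ u, gAt g p (L u) (L u) = inner ℝ u u) (v w : E3) :
    pullBack g (expMap g p L) v v w = inner ℝ v w := by
  set E := expMap g p L
  have hP := isParam_pullBack contMDiff_expMap (bijective_mfderiv hnc hL) g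
  set f : ℝ → ℝ := fun r => pullBack g E (r • v) v (r • w)
  have hd : ∀ s, HasDerivAt f (inner ℝ v w) s := by
    intro s
    set q := E (s • v)
    have hq : E (s • v) ∈ (chartAt E3 q).source := mem_chart_source E3 q
    obtain ⟨G, hG, hGe⟩ := ((isParam_chart g q).metricNear
      (mem_extChartAt_target (I := 𝓡 3) q)).extend
    have hF := contDiffAt_expMap_chart (g := g) (p := p) (L := L) hq
    have hGe' : G =ᶠ[𝓝 (coordChange E q (s • v))] inChart g q := hGe
    obtain ⟨-, hG2⟩ := variation (w := w) hF hG (ray_hyp hL hq hGe')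
    refine hG2.congr_of_eventuallyEq ?_
    have hray : Tendsto (fun r : ℝ => r • v) (𝓝 s) (𝓝 (s • v)) :=
      (continuous_id.smul continuous_const).tendsto s
    filter_upwards [hray.eventually (eventually_source hq),
      hray.eventually (hF.continuousAt.eventually hGe')] with r hr hGr
    show pullBack g E (r • v) v (r • w) = _
    rw [hGr]
    exact (hP.apply_eq (mem_univ _) hr v (r • w)).symm
  have h1 : ∀ r, HasDerivAt (fun r => f r - r * inner ℝ v w) 0 r := fun r =>
    ((hd r).sub ((hasDerivAt_id r).mul_const (inner ℝ v w))).congr_deriv (by simp)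
  have := is_const_of_deriv_eq_zero (fun r => (h1 r).differentiableAt) (fun r => (h1 r).deriv) 1 0
  simp only [f, one_smul, zero_smul, map_zero, one_mul, zero_mul, sub_zero, sub_eq_zero] at this
  exact this

/-- The radial component is bounded by the metric. -/
theorem radial (hnc : NoConjugatePoints g)
    (hL : ∀ u, gAt g p (L u) (L u) = inner ℝ u u) (x u : E3) :
    |inner ℝ x u| ≤ ‖x‖ * gNorm (pullBack g (expMap g p L)) x u := by
  rcases eq_or_ne x 0 with rfl | hx
  · simp
  set G := pullBack g (expMap g p L)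
  have hG : IsMetric G := isMetric_pullBack contMDiff_expMap (bijective_mfderiv hnc hL) g
  set r := inner ℝ x u / ‖x‖ ^ 2 with hr
  have h0 : 0 ≤ G x (u - r • x) (u - r • x) := by
    by_cases h : u - r • x = 0
    · simp [h]
    · exact (hG.pos x _ h).le
  have hn : (‖x‖ : ℝ) ^ 2 ≠ 0 := pow_ne_zero _ (norm_ne_zero_iff.2 hx)
  simp only [map_sub, map_smul, sub_apply, smul_apply, smul_eq_mul, hG.symm x u x] at h0
  rw [show G x x u = inner ℝ x u from gauss hnc hL x u,
    show G x x x = ‖x‖ ^ 2 from (gauss hnc hL x x).trans (real_inner_self_eq_norm_sq x)] at h0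
  have h1 : inner ℝ x u ^ 2 ≤ ‖x‖ ^ 2 * G x u u := by
    have h2 : r * ‖x‖ ^ 2 = inner ℝ x u := by rw [hr]; field_simp
    nlinarith [sq_nonneg ‖x‖]
  rw [gNorm, ← Real.sqrt_sq (norm_nonneg x), ← Real.sqrt_mul (sq_nonneg _)]
  exact Real.abs_le_sqrt h1

/-- Exponential maps: smooth local diffeomorphisms onto the geodesics from any centre, with the
radial bound. -/
theorem exists_exp (g : SmoothMetric M) (hnc : NoConjugatePoints g) (p : M) :
    ∃ E : E3 → M, ContMDiff (𝓡 3) (𝓡 3) ∞ E ∧
      (∀ x, Function.Bijective (mfderiv (𝓡 3) (𝓡 3) E x)) ∧ E 0 = p ∧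
      (∀ x u : E3, |inner ℝ x u| ≤ ‖x‖ * gNorm (pullBack g E) x u) ∧
      ∀ γ, IsGeodesic g γ → γ 0 = p → ∃ v, ∀ t : ℝ, E (t • v) = γ t := by
  obtain ⟨G, hG, hGe⟩ := ((isParam_chart g p).metricNear
    (mem_extChartAt_target (I := 𝓡 3) p)).extend
  obtain ⟨A, -, hA⟩ := Six.Bridge.exists_frame hG
  set L := A (extChartAt (𝓡 3) p p) with hLdef
  have hL : ∀ u, gAt g p (L u) (L u) = inner ℝ u u := fun u => by
    rw [gAt, ← hGe.eq_of_nhds]
    exact hA _ u u
  refine ⟨expMap g p L, contMDiff_expMap, bijective_mfderiv hnc hL, expMap_zero,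
    radial hnc hL, fun γ hγ hγ0 => ?_⟩
  have hsurj : Function.Surjective (L : E3 →ₗ[ℝ] E3) := by
    refine LinearMap.surjective_of_injective ((injective_iff_map_eq_zero _).2 fun u hu => ?_)
    have := hL u
    rw [show L u = 0 from hu, map_zero] at this
    exact inner_self_eq_zero.1 this.symm
  obtain ⟨v, hv⟩ := hsurj (velAt γ 0)
  refine ⟨v, fun t => ?_⟩
  rw [expMap_smul, show L v = velAt γ 0 from hv]
  have h := eq_geo hγ
  rw [hγ0] at h
  rw [← h]

end

end Vale.Agent.P255.Cover
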