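import Vale.Agent.P255.Cover.Local

/-!
# Completeness of geodesics on a compact manifold and their dependence on the initial velocity
-/

open scoped Manifold ContDiff Topology RealInnerProductSpace
open Filter Set

set_option maxSynthPendingDepth 3

namespace Vale.Agent.P255.Cover

open Vale.Agent.P219 Vale.Agent.P219.Univ Vale.Agent.P219.Six.Bridge
open Vale.Agent.P219.Six (IsGeo sprayF)

noncomputable section

variable {M : Type} [TopologicalSpace M] [ChartedSpace E3 M] [IsManifold (𝓡 3) ∞ M]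
  {g : SmoothMetric M} {γ η : ℝ → M}

/-- The velocity in the preferred chart at the point. -/
def velAt (γ : ℝ → M) (t : ℝ) : E3 := deriv (curveAt γ t) t

omit [IsManifold (𝓡 3) ∞ M] in
theorem velAt_congr {t : ℝ} (h : η =ᶠ[𝓝 t] γ) : velAt η t = velAt γ t := by
  refine EventuallyEq.deriv_eq (h.mono fun s hs => ?_)
  simp [curveAt, hs, h.eq_of_nhds]

theorem deriv_affine (f : ℝ → E3) (m b : ℝ) :
    deriv (fun r => f (m * r + b)) = fun r => m • deriv f (m * r + b) := by
  funext r
  rw [deriv_comp_mul_left m (fun x => f (x + b)) r, deriv_comp_add_const]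

omit [IsManifold (𝓡 3) ∞ M] in
theorem velAt_affine (γ : ℝ → M) (m b t : ℝ) :
    velAt (fun r => γ (m * r + b)) t = m • velAt γ (m * t + b) := by
  show deriv (fun s => curveAt γ (m * t + b) (m * s + b)) t = _
  rw [deriv_affine]
  rfl

theorem GeoOn.affine {I : Set ℝ} (h : GeoOn g γ I) (m b : ℝ) :
    GeoOn g (fun r => γ (m * r + b)) ((fun r => m * r + b) ⁻¹' I) := by
  refine ⟨fun t ht => ?_, fun t ht => ?_⟩
  · exact (h.smooth _ ht).comp t
      ((contDiff_const.mul contDiff_id).add contDiff_const).contDiffAt.contMDiffAt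
  · have he := h.eqn _ ht
    unfold GeoEq at he ⊢
    have e : curveAt (fun r => γ (m * r + b)) t = fun r => curveAt γ (m * t + b) (m * r + b) := rfl
    rw [e, deriv_affine]
    have e2 : deriv (fun r => m • deriv (curveAt γ (m * t + b)) (m * r + b)) t =
        m • m • deriv (deriv (curveAt γ (m * t + b))) (m * t + b) := by
      rw [deriv_fun_const_smul_field, deriv_affine]
    rw [e2]
    simp only [Geo.gam_smul₁, Geo.gam_smul₂]
    rw [← smul_add, ← smul_add, he, smul_zero, smul_zero]

/-- Geodesics have constant speed. -/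
theorem GeoOn.speed {a b : ℝ} (h : GeoOn g γ (Ioo a b)) {s t : ℝ} (hs : s ∈ Ioo a b)
    (ht : t ∈ Ioo a b) :
    gAt g (γ s) (velAt γ s) (velAt γ s) = gAt g (γ t) (velAt γ t) (velAt γ t) := by
  set f := fun r => gAt g (γ r) (velAt γ r) (velAt γ r)
  have hd : ∀ r ∈ Ioo a b, HasDerivWithinAt f (0 : ℝ) (Ioo a b) r := by
    intro r hr
    set q := γ r
    have hq : γ r ∈ (chartAt E3 q).source := mem_chart_source E3 q
    obtain ⟨G, hG, hGe⟩ := ((isParam_chart g q).metricNear
      (mem_extChartAt_target (I := 𝓡 3) q)).extend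
    have hl := h.isLift isOpen_Ioo hr hq
    have hev : f =ᶠ[𝓝 r] fun u => G (readAt q γ u) (deriv (readAt q γ) u) (deriv (readAt q γ) u) := by
      filter_upwards [isOpen_Ioo.eventually_mem hr, (h.smooth r hr).continuousAt.preimage_mem_nhds
        ((chartAt E3 q).open_source.mem_nhds hq), hl.smooth.self_of_nhds.continuousAt.eventually hGe]
        with u hu huq hGu
      show gAt g (γ u) (velAt γ u) (velAt γ u) = _
      rw [hGu, velAt, deriv_readAt g ((isOpen_Ioo.eventually_mem hu).mono fun v hv => h.smooth v hv) huq]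
      exact gAt_toOwn g huq _ _
    obtain ⟨e1, e2⟩ := h.eq_readAt isOpen_Ioo hr hq
    have hGr : gam G (readAt q γ r) = gam (inChart g q) (readAt q γ r) :=
      funext fun u => funext fun v => gam_congr (by
        have : readAt q γ r = extChartAt (𝓡 3) q q := rfl
        rw [this]; exact hGe) u v
    have := Geo.hasDerivAt_g hG e1 e2 e2
    rw [hGr, neg_add_cancel, map_zero, zero_apply, map_zero, add_zero] at this
    exact (this.congr_of_eventuallyEq hev).hasDerivWithinAt
  have := (convex_Ioo a b).norm_image_sub_le_of_norm_hasDerivWithin_le hd (C := 0)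
    (fun r _ => by simp) ht hs
  simp only [zero_mul, norm_le_zero_iff, sub_eq_zero] at this
  exact this

section

variable [T2Space M] [CompactSpace M]

omit [T2Space M] in
/-- Geodesics exist for a time inversely proportional to the speed. -/
theorem exists_uniform (g : SmoothMetric M) :
    ∃ k > 0, ∀ (x : M) (w : E3) (a : ℝ), 0 < a → k * a * Real.sqrt (gAt g x w w) < 1 →
      ∃ γ, GeoOn g γ (Ioo (-a) a) ∧ γ 0 = x ∧ velAt γ 0 = w := by
  choose U k G Φ hU hqU hUs hk hG hΦ hflow using exists_local_flow g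
  obtain ⟨S, hS⟩ := isCompact_univ.elim_finite_subcover U hU fun x _ => mem_iUnion.2 ⟨x, hqU x⟩
  refine ⟨1 + ∑ q ∈ S, k q, add_pos_of_pos_of_nonneg one_pos (Finset.sum_nonneg fun q _ => (hk q).le),
    fun x w a ha hsp => ?_⟩
  obtain ⟨q, hqS, hxq⟩ := mem_iUnion₂.1 (hS (mem_univ x))
  obtain ⟨wq, hwq⟩ := (bijective_toOwn g (hUs q hxq)).2 w
  have hle : k q * a * Real.sqrt (inChart g q (extChartAt (𝓡 3) q x) wq wq) < 1 := by
    rw [← gAt_toOwn g (hUs q hxq), hwq]
    refine lt_of_le_of_lt (mul_le_mul_of_nonneg_right (mul_le_mul_of_nonneg_right ?_ ha.le)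
      (Real.sqrt_nonneg _)) hsp
    have := Finset.single_le_sum (f := k) (fun i _ => (hk i).le) hqS
    linarith
  obtain ⟨hgeo, htgt⟩ := hflow q x hxq wq a hle
  set φ := extChartAt (𝓡 3) q
  have hxs : x ∈ φ.source := by rw [extChartAt_source]; exact hUs q hxq
  set ζ : ℝ → M := fun s => φ.symm (Φ q s (φ x, wq)).1
  have h0 : ζ 0 = x := by simp [ζ, (hΦ q).zero, φ.left_inv hxs]
  have hmem : (0 : ℝ) ∈ Ioo (-a) a := ⟨neg_lt_zero.2 ha, ha⟩
  refine ⟨ζ, hgeo, h0, ?_⟩
  have hr : readAt q ζ =ᶠ[𝓝 0] fun s => (Φ q s (φ x, wq)).1 :=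
    (isOpen_Ioo.eventually_mem hmem).mono fun s hs => φ.right_inv (htgt s hs)
  rw [velAt, deriv_readAt g ((isOpen_Ioo.eventually_mem hmem).mono fun v hv => hgeo.smooth v hv)
    (h0.symm ▸ hUs q hxq), hr.deriv_eq, hr.eq_of_nhds,
    ((Hadamard.isGeo_flow (hΦ q) (φ x) wq 0).1).deriv]
  simp only [(hΦ q).zero, h0]
  exact hwq

omit [CompactSpace M] in
/-- A geodesic is continued to the right. -/
theorem extend_right {k τ c A : ℝ} (hτ : 0 < τ)
    (hk : ∀ (x : M) (w : E3) (a : ℝ), 0 < a → k * a * Real.sqrt (gAt g x w w) < 1 →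
      ∃ γ, GeoOn g γ (Ioo (-a) a) ∧ γ 0 = x ∧ velAt γ 0 = w)
    (hcA : c + τ ≤ A) (h : GeoOn g γ (Ioo c A))
    (hsp : ∀ s ∈ Ioo c A, k * τ * Real.sqrt (gAt g (γ s) (velAt γ s) (velAt γ s)) < 1) :
    ∃ δ, GeoOn g δ (Ioo c (A + τ / 2)) ∧ EqOn δ γ (Ioo c A) := by
  set t₀ := A - τ / 2 with ht₀
  have hmem : t₀ ∈ Ioo c A := ⟨by linarith, by linarith⟩
  obtain ⟨ζ, hζ, hζ0, hζv⟩ := hk (γ t₀) (velAt γ t₀) τ hτ (hsp t₀ hmem)
  set ζ' : ℝ → M := fun r => ζ (1 * r + -t₀)
  have hζ' : GeoOn g ζ' (Ioo (t₀ - τ) (t₀ + τ)) :=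
    (hζ.affine 1 (-t₀)).mono fun r hr => ⟨by linarith [hr.1], by linarith [hr.2]⟩
  set J := Ioo (max c (t₀ - τ)) A
  have hJ : t₀ ∈ J := ⟨max_lt hmem.1 (by linarith), hmem.2⟩
  have hJγ : J ⊆ Ioo c A := Ioo_subset_Ioo_left (le_max_left _ _)
  have hJζ : J ⊆ Ioo (t₀ - τ) (t₀ + τ) :=
    Ioo_subset_Ioo (le_max_right _ _) (by linarith)
  have heq : EqOn ζ' γ J := GeoOn.eqOn isOpen_Ioo isPreconnected_Ioo (hζ'.mono hJζ) (h.mono hJγ) hJ
    (by simp [ζ', hζ0]) (by
      show velAt ζ' t₀ = velAt γ t₀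
      rw [velAt_affine]
      simp [hζv])
  classical
  set δ : ℝ → M := fun r => if r < t₀ then γ r else ζ' r
  have hδ : EqOn δ γ (Ioo c A) := by
    intro r hr
    simp only [δ]
    split_ifs with h1
    · rfl
    · exact heq ⟨max_lt hr.1 (by linarith [not_lt.1 h1]), hr.2⟩
  have hloc : ∀ r ∈ Ioo c (A + τ / 2), (δ =ᶠ[𝓝 r] γ ∧ r ∈ Ioo c A) ∨
      (δ =ᶠ[𝓝 r] ζ' ∧ r ∈ Ioo (t₀ - τ) (t₀ + τ)) := by
    intro r hr
    rcases lt_or_ge r A with h1 | h1
    · exact Or.inl ⟨(isOpen_Ioo.eventually_mem ⟨hr.1, h1⟩).mono fun s hs => hδ hs, hr.1, h1⟩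
    · refine Or.inr ⟨?_, by linarith, by linarith [hr.2]⟩
      filter_upwards [eventually_gt_nhds (show t₀ < r by linarith)] with s hs
      simp [δ, not_lt.2 hs.le]
  refine ⟨δ, ⟨fun r hr => ?_, fun r hr => ?_⟩, hδ⟩
  · rcases hloc r hr with ⟨e, hr'⟩ | ⟨e, hr'⟩
    · exact (h.smooth r hr').congr_of_eventuallyEq e
    · exact (hζ'.smooth r hr').congr_of_eventuallyEq e
  · rcases hloc r hr with ⟨e, hr'⟩ | ⟨e, hr'⟩
    · exact (h.eqn r hr').congr e
    · exact (hζ'.eqn r hr').congr e

/-- All geodesics are complete. -/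
theorem exists_geodesic (g : SmoothMetric M) (x : M) (w : E3) :
    ∃ γ, IsGeodesic g γ ∧ γ 0 = x ∧ velAt γ 0 = w := by
  obtain ⟨k, hk0, hk⟩ := exists_uniform g
  set L := Real.sqrt (gAt g x w w) with hL
  have hL0 : 0 ≤ L := Real.sqrt_nonneg _
  set τ := 1 / (k * (L + 1)) with hτdef
  have hτ : 0 < τ := by positivity
  have hτL : k * τ * L < 1 := by
    have : k * τ * L = L / (L + 1) := by rw [hτdef]; field_simp
    rw [this, div_lt_one (by linarith)]
    linarith
  have hex : ∀ n : ℕ, ∃ γ, GeoOn g γ (Ioo (-(τ + n * (τ / 2))) (τ + n * (τ / 2))) ∧ γ 0 = x ∧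
      velAt γ 0 = w := by
    intro n
    induction n with
    | zero => simpa using hk x w τ hτ hτL
    | succ n ih =>
      obtain ⟨γ, hγ, hγ0, hγv⟩ := ih
      set A := τ + n * (τ / 2) with hA
      have hA0 : τ ≤ A := by rw [hA]; linarith [mul_nonneg n.cast_nonneg (half_pos hτ).le]
      have h0 : (0 : ℝ) ∈ Ioo (-A) A := ⟨by linarith, by linarith⟩
      have hsp : ∀ s ∈ Ioo (-A) A,
          k * τ * Real.sqrt (gAt g (γ s) (velAt γ s) (velAt γ s)) < 1 := fun s hs => by
        rw [hγ.speed hs h0, hγ0, hγv]; exact hτL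
      obtain ⟨δ, hδ, hδe⟩ := extend_right hτ hk (by linarith) hγ hsp
      have hδ0 : δ =ᶠ[𝓝 0] γ := (isOpen_Ioo.eventually_mem h0).mono fun s hs => hδe hs
      have h0' : (0 : ℝ) ∈ Ioo (-A) (A + τ / 2) := ⟨h0.1, by linarith⟩
      have hsp' : ∀ s ∈ Ioo (-A) (A + τ / 2),
          k * τ * Real.sqrt (gAt g (δ s) (velAt δ s) (velAt δ s)) < 1 := fun s hs => by
        rw [hδ.speed hs h0', velAt_congr hδ0, hδ0.eq_of_nhds, hγ0, hγv]; exact hτL
      set ρ : ℝ → M := fun r => δ (-1 * r + 0)
      have hρ : GeoOn g ρ (Ioo (-(A + τ / 2)) A) :=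
        (hδ.affine (-1) 0).mono fun r hr => ⟨by linarith [hr.2], by linarith [hr.1]⟩
      have hspρ : ∀ s ∈ Ioo (-(A + τ / 2)) A,
          k * τ * Real.sqrt (gAt g (ρ s) (velAt ρ s) (velAt ρ s)) < 1 := fun s hs => by
        have := hsp' (-1 * s + 0) ⟨by linarith [hs.2], by linarith [hs.1]⟩
        rw [velAt_affine]
        simpa [ρ] using this
      obtain ⟨δ', hδ', hδe'⟩ := extend_right hτ hk (by linarith) hρ hspρ
      refine ⟨fun r => δ' (-1 * r + 0), (hδ'.affine (-1) 0).mono ?_, ?_, ?_⟩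
      · intro r hr
        push_cast at hr
        exact ⟨by linarith [hr.2], by linarith [hr.1]⟩
      · simp only [mul_zero, add_zero]
        rw [hδe' ⟨by linarith, by linarith⟩]
        simpa [ρ] using hδ0.eq_of_nhds.trans hγ0
      · have he : δ' =ᶠ[𝓝 0] ρ := (isOpen_Ioo.eventually_mem
          (show (0 : ℝ) ∈ Ioo (-(A + τ / 2)) A from ⟨by linarith, by linarith⟩)).mono
            fun s hs => hδe' hs
        rw [velAt_affine]
        simp only [mul_zero, add_zero]
        rw [velAt_congr he, velAt_affine]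
        simp [velAt_congr hδ0, hγv]
  choose γ hγ hγ0 hγv using hex
  have hagree : ∀ (n m : ℕ) (t : ℝ), |t| < τ + n * (τ / 2) → |t| < τ + m * (τ / 2) →
      γ n t = γ m t := by
    intro n m t hn hm
    set B := min (τ + n * (τ / 2)) (τ + m * (τ / 2))
    have hB : |t| < B := lt_min hn hm
    have hI : ∀ r : ℕ, B ≤ τ + r * (τ / 2) → GeoOn g (γ r) (Ioo (-B) B) := fun r hr =>
      (hγ r).mono (Ioo_subset_Ioo (by linarith) hr)
    exact GeoOn.eqOn isOpen_Ioo isPreconnected_Ioo (hI n (min_le_left _ _)) (hI m (min_le_right _ _))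
      (show (0 : ℝ) ∈ Ioo (-B) B from ⟨by linarith [abs_nonneg t], by linarith [abs_nonneg t]⟩)
      (by rw [hγ0, hγ0]) ((hγv n).trans (hγv m).symm) (abs_lt.1 hB)
  set N : ℝ → ℕ := fun t => ⌈|t| / (τ / 2)⌉₊
  have hN : ∀ t, |t| < τ + N t * (τ / 2) := fun t => by
    have h1 : |t| / (τ / 2) ≤ N t := Nat.le_ceil _
    rw [div_le_iff₀ (half_pos hτ)] at h1
    linarith
  set Γ : ℝ → M := fun t => γ (N t) t
  have hloc : ∀ (n : ℕ) (t : ℝ), |t| < τ + n * (τ / 2) → Γ =ᶠ[𝓝 t] γ n := fun n t ht => by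
    filter_upwards [continuous_abs.continuousAt.preimage_mem_nhds (Iio_mem_nhds ht)] with s hs
    exact hagree (N s) n s (hN s) hs
  refine ⟨Γ, GeoOn.isGeodesic ⟨fun t _ => ?_, fun t _ => ?_⟩, hγ0 _, ?_⟩
  · exact ((hγ (N t)).smooth t (abs_lt.1 (hN t))).congr_of_eventuallyEq (hloc (N t) t (hN t))
  · exact ((hγ (N t)).eqn t (abs_lt.1 (hN t))).congr (hloc (N t) t (hN t))
  · rw [velAt_congr (hloc 0 0 (by simpa using hτ))]
    exact hγv 0

/-- The geodesic with given initial data. -/
def geo (g : SmoothMetric M) (x : M) (w : E3) : ℝ → M := (exists_geodesic g x w).choose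

theorem isGeodesic_geo (g : SmoothMetric M) (x : M) (w : E3) : IsGeodesic g (geo g x w) :=
  (exists_geodesic g x w).choose_spec.1

theorem geo_zero (g : SmoothMetric M) (x : M) (w : E3) : geo g x w 0 = x :=
  (exists_geodesic g x w).choose_spec.2.1

theorem velAt_geo (g : SmoothMetric M) (x : M) (w : E3) : velAt (geo g x w) 0 = w :=
  (exists_geodesic g x w).choose_spec.2.2

theorem geoOn_geo (g : SmoothMetric M) (x : M) (w : E3) : GeoOn g (geo g x w) univ :=
  geoOn_of_isGeodesic (isGeodesic_geo g x w)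

/-- Every geodesic is `geo` of its initial data. -/
theorem eq_geo (hγ : IsGeodesic g γ) : γ = geo g (γ 0) (velAt γ 0) := by
  funext t
  exact GeoOn.eqOn isOpen_univ isPreconnected_univ (geoOn_of_isGeodesic hγ) (geoOn_geo g _ _)
    (mem_univ 0) (geo_zero g _ _).symm (velAt_geo g _ _).symm (mem_univ t)

theorem geo_smul (g : SmoothMetric M) (x : M) (w : E3) (m : ℝ) :
    geo g x (m • w) = fun t => geo g x w (m * t) := by
  have h : GeoOn g (fun t => geo g x w (m * t + 0)) univ := ((geoOn_geo g x w).affine m 0)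
  have hv : velAt (fun t => geo g x w (m * t + 0)) 0 = m • w := by
    rw [velAt_affine]
    simp [velAt_geo]
  have := eq_geo h.isGeodesic
  rw [hv] at this
  simp only [mul_zero, add_zero, geo_zero] at this
  exact this.symm

theorem speed_geo (g : SmoothMetric M) (x : M) (w : E3) (t : ℝ) :
    gAt g (geo g x w t) (velAt (geo g x w) t) (velAt (geo g x w) t) = gAt g x w w := by
  have h := ((geoOn_geo g x w).mono (subset_univ (Ioo (-(|t| + 1)) (|t| + 1)))).speed
    (s := t) (t := 0) ⟨by linarith [neg_abs_le t], by linarith [le_abs_self t]⟩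
    ⟨by linarith [abs_nonneg t], by linarith [abs_nonneg t]⟩
  rwa [geo_zero, velAt_geo] at h

/-- Position and velocity at time `t` in the chart at `q`, as a function of the initial velocity. -/
def stateAt (g : SmoothMetric M) (p q : M) (t : ℝ) (w : E3) : E3 × E3 :=
  (readAt q (geo g p w) t, deriv (readAt q (geo g p w)) t)

/-- The geodesic from `p` depends smoothly on the velocity near `w₀` at time `t`. -/
structure SmoothState (g : SmoothMetric M) (p : M) (w₀ : E3) (t : ℝ) : Prop where
  cont : ContinuousAt (fun w => geo g p w t) w₀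
  smooth : ∀ q, geo g p w₀ t ∈ (chartAt E3 q).source → ContDiffAt ℝ ∞ (stateAt g p q t) w₀

/-- Smoothness in one chart gives smoothness in all. -/
theorem smoothState_of_chart {p q : M} {w₀ : E3} {t : ℝ}
    (hq : geo g p w₀ t ∈ (chartAt E3 q).source) (hc : ContinuousAt (fun w => geo g p w t) w₀)
    (hs : ContDiffAt ℝ ∞ (stateAt g p q t) w₀) : SmoothState g p w₀ t := by
  refine ⟨hc, fun q' hq' => ?_⟩
  set T := coordChange (extChartAt (𝓡 3) q).symm q'
  set y₀ := readAt q (geo g p w₀) t
  have hy₀ : y₀ ∈ (extChartAt (𝓡 3) q).target :=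
    (extChartAt (𝓡 3) q).map_source (by rw [extChartAt_source]; exact hq)
  have hN : (extChartAt (𝓡 3) q).symm y₀ ∈ (chartAt E3 q').source := by
    show (extChartAt (𝓡 3) q).symm (extChartAt (𝓡 3) q (geo g p w₀ t)) ∈ _
    rw [(extChartAt (𝓡 3) q).left_inv (by rw [extChartAt_source]; exact hq)]
    exact hq'
  have hT : ∀ᶠ z in 𝓝 y₀, ContDiffAt ℝ ∞ T z :=
    (isParam_chart g q).contDiffAt_coordChange hy₀ hN
  have heq : stateAt g p q' t =ᶠ[𝓝 w₀] fun w => (T (stateAt g p q t w).1,
      fderiv ℝ T (stateAt g p q t w).1 (stateAt g p q t w).2) := by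
    filter_upwards [hc.preimage_mem_nhds ((chartAt E3 q).open_source.mem_nhds hq),
      hc.preimage_mem_nhds ((chartAt E3 q').open_source.mem_nhds hq'),
      (hs.continuousAt.fst).eventually hT] with w h1 h2 h3
    have hl := (geoOn_geo g p w).isLift isOpen_univ (mem_univ t) h1
    have he : readAt q' (geo g p w) =ᶠ[𝓝 t] T ∘ readAt q (geo g p w) :=
      hl.mem.mono fun s hs => by
        show extChartAt (𝓡 3) q' _ = extChartAt (𝓡 3) q' ((extChartAt (𝓡 3) q).symm _)
        rw [hs.2]
    simp only [stateAt]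
    refine Prod.ext he.eq_of_nhds ?_
    rw [he.deriv_eq]
    exact ((h3.differentiableAt (by simp)).hasFDerivAt.comp_hasDerivAt t
      ((geoOn_geo g p w).eq_readAt isOpen_univ (mem_univ t) h1).1).deriv
  refine ContDiffAt.congr_of_eventuallyEq ?_ heq
  have h1 : ContDiffAt ℝ ∞ (fun w => (stateAt g p q t w).1) w₀ := contDiffAt_fst.comp w₀ hs
  exact (hT.self_of_nhds.comp w₀ h1).prodMk
    (((contDiffAt_D hT.self_of_nhds).comp w₀ h1).clm_apply (contDiffAt_snd.comp w₀ hs))

/-- The flow at a positive time is smooth. -/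
theorem contDiff_flow {n : ℕ} {G : MetricField n} {Φ : ℝ → Space n × Space n → Space n × Space n}
    (hG : IsMetric G) (hΦ : IsFlow (sprayF G) Φ) {σ : ℝ} (hσ : σ ≠ 0) :
    ContDiff ℝ ∞ (Φ σ) := by
  have e : Φ σ = fun p => ((Φ 1 (p.1, σ • p.2)).1, σ⁻¹ • (Φ 1 (p.1, σ • p.2)).2) := by
    funext p
    obtain ⟨x, v⟩ := p
    have h1 : IsGeo G (fun s => (Φ (σ * s) (x, v)).1) (fun s => σ • (Φ (σ * s) (x, v)).2) := by
      intro s
      have hl : HasDerivAt (fun r => σ * r) σ s := by simpa using (hasDerivAt_id s).const_mul σ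
      obtain ⟨e1, e2⟩ := Hadamard.isGeo_flow hΦ x v (σ * s)
      refine ⟨e1.scomp s hl, ((e2.scomp s hl).const_smul σ).congr_deriv ?_⟩
      rw [Geo.gam_smul₁, Geo.gam_smul₂]
      module
    obtain ⟨e1, e2⟩ := (Hadamard.isGeo_flow hΦ x (σ • v)).unique hG h1 (by simp [hΦ.zero])
      (by simp [hΦ.zero])
    have e1' := congrFun e1 1
    have e2' := congrFun e2 1
    simp only [mul_one] at e1' e2'
    rw [e1', e2', inv_smul_smul₀ hσ]
  rw [e]
  have h : ContDiff ℝ ∞ fun p : Space n × Space n => Φ 1 (p.1, σ • p.2) :=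
    hΦ.contDiff_one.comp (contDiff_fst.prodMk (contDiff_snd.const_smul σ))
  exact (contDiff_fst.comp h).prodMk ((contDiff_snd.comp h).const_smul σ⁻¹)

/-- The geodesic from a point depends smoothly on its initial velocity. -/
theorem smoothState (g : SmoothMetric M) (p : M) (w₀ : E3) : SmoothState g p w₀ 1 := by
  choose U k G Φ hU hqU hUs hk hG hΦ hflow using exists_local_flow g
  obtain ⟨S, hS⟩ := isCompact_univ.elim_finite_subcover U hU fun x _ => mem_iUnion.2 ⟨x, hqU x⟩
  set K := 1 + ∑ q ∈ S, k q with hK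
  set L := Real.sqrt (gAt g p w₀ w₀) with hL
  obtain ⟨N, hN⟩ := exists_nat_gt (2 * K * (L + 1))
  have hK0 : 0 < K := add_pos_of_pos_of_nonneg one_pos (Finset.sum_nonneg fun q _ => (hk q).le)
  have hL0 : 0 ≤ L := Real.sqrt_nonneg _
  have hN0 : (0 : ℝ) < N := lt_trans (by positivity) hN
  set σ := 1 / (N : ℝ) with hσdef
  have hσ : 0 < σ := by positivity
  have key : ∀ j : ℕ, SmoothState g p w₀ (j * σ) := by
    intro j
    induction j with
    | zero =>
      simp only [Nat.cast_zero, zero_mul]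
      refine smoothState_of_chart (q := p) (by rw [geo_zero]; exact mem_chart_source E3 p)
        (by simpa [geo_zero] using continuousAt_const) ?_
      have e : stateAt g p p 0 = fun w => (extChartAt (𝓡 3) p p, w) := by
        funext w
        have hv := velAt_geo g p w
        rw [velAt, curveAt_eq_readAt, geo_zero] at hv
        simp only [stateAt, hv]
        simp [readAt, geo_zero]
      rw [e]
      exact contDiffAt_const.prodMk contDiffAt_id
    | succ j ih =>
      set t := (j : ℝ) * σ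
      set x := geo g p w₀ t
      obtain ⟨q, hqS, hxq⟩ := mem_iUnion₂.1 (hS (mem_univ x))
      set φ := extChartAt (𝓡 3) q
      have hP := ih.smooth q (hUs q hxq)
      set P := stateAt g p q t
      have hy₀ : (P w₀).1 ∈ φ.target :=
        φ.map_source (by rw [extChartAt_source]; exact hUs q hxq)
      set a := 2 * σ
      have hcond : ∀ᶠ w in 𝓝 w₀,
          k q * a * Real.sqrt (inChart g q (P w).1 (P w).2 (P w).2) < 1 := by
        have hcont : ContinuousAt (fun w => k q * a *
            Real.sqrt (inChart g q (P w).1 (P w).2 (P w).2)) w₀ := by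
          have hg' : ContinuousAt (inChart g q) (P w₀).1 :=
            ((isParam_chart g q).metricNear hy₀).smooth.self_of_nhds.continuousAt
          have h1 : ContinuousAt (fun w => inChart g q (P w).1) w₀ :=
            ContinuousAt.comp (f := fun w => (P w).1) hg' hP.continuousAt.fst
          exact continuousAt_const.mul ((h1.clm_apply hP.continuousAt.snd).clm_apply
            hP.continuousAt.snd).sqrt
        refine hcont.preimage_mem_nhds (Iio_mem_nhds ?_)
        have hsp : inChart g q (P w₀).1 (P w₀).2 (P w₀).2 = gAt g p w₀ w₀ := by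
          rw [← speed_geo g p w₀ t, velAt, deriv_readAt g (Eventually.of_forall fun s =>
            (geoOn_geo g p w₀).smooth s (mem_univ s)) (hUs q hxq)]
          exact (gAt_toOwn g (hUs q hxq) _ _).symm
        rw [hsp, ← hL]
        have hkK : k q ≤ K := by
          have := Finset.single_le_sum (f := k) (fun i _ => (hk i).le) hqS
          linarith
        calc k q * a * L ≤ K * a * (L + 1) := by
              refine mul_le_mul (mul_le_mul_of_nonneg_right hkK (by positivity)) (by linarith) hL0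
                (by positivity)
          _ = 2 * K * (L + 1) / N := by simp only [a, σ]; ring
          _ < 1 := by rw [div_lt_one hN0]; exact hN
      have hnear : ∀ᶠ w in 𝓝 w₀, stateAt g p q (t + σ) w = Φ q σ (P w) ∧
          geo g p w (t + σ) = φ.symm (Φ q σ (P w)).1 ∧ (Φ q σ (P w)).1 ∈ φ.target := by
        filter_upwards [ih.cont.preimage_mem_nhds ((hU q).mem_nhds hxq), hcond] with w hw hc
        have hPw : P w = (φ (geo g p w t), deriv (readAt q (geo g p w)) t) := rfl
        obtain ⟨hgeo, htgt⟩ := hflow q (geo g p w t) hw (P w).2 a hc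
        set ζ : ℝ → M := fun s => φ.symm (Φ q s (φ (geo g p w t), (P w).2)).1
        have h0 : (0 : ℝ) ∈ Ioo (-a) a := ⟨by linarith, by linarith⟩
        have hs0 : geo g p w t ∈ φ.source := by rw [extChartAt_source]; exact hUs q hw
        have hζ0 : ζ 0 = geo g p w t := by simp [ζ, (hΦ q).zero, φ.left_inv hs0]
        have hr : readAt q ζ =ᶠ[𝓝 0] fun s => (Φ q s (φ (geo g p w t), (P w).2)).1 :=
          (isOpen_Ioo.eventually_mem h0).mono fun s hs => φ.right_inv (htgt s hs)
        have hvζ : velAt ζ 0 = velAt (geo g p w) t := by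
          rw [velAt, velAt, deriv_readAt g ((isOpen_Ioo.eventually_mem h0).mono
            fun v hv => hgeo.smooth v hv) (show ζ 0 ∈ _ from by rw [hζ0]; exact hUs q hw), hr.deriv_eq, hr.eq_of_nhds,
            ((Hadamard.isGeo_flow (hΦ q) _ _ 0).1).deriv,
            deriv_readAt g (Eventually.of_forall fun s =>
              (geoOn_geo g p w).smooth s (mem_univ s)) (hUs q hw)]
          simp only [(hΦ q).zero, hζ0]
          rfl
        have hsh : GeoOn g (fun r => geo g p w (1 * r + t)) (Ioo (-a) a) :=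
          ((geoOn_geo g p w).affine 1 t).mono (subset_univ _)
        have heq : EqOn ζ (fun r => geo g p w (1 * r + t)) (Ioo (-a) a) :=
          GeoOn.eqOn isOpen_Ioo isPreconnected_Ioo hgeo hsh h0 (by simp [hζ0]) (by
            show velAt ζ 0 = velAt (fun r => geo g p w (1 * r + t)) 0
            rw [velAt_affine]
            simpa using hvζ)
        have hσa : σ ∈ Ioo (-a) a := ⟨by linarith, by linarith⟩
        have hread : readAt q (geo g p w) =ᶠ[𝓝 (t + σ)] fun r => (Φ q (r - t) (P w)).1 := by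
          have hsub : ContinuousAt (fun r : ℝ => r - t) (t + σ) := by fun_prop
          filter_upwards [hsub.preimage_mem_nhds (isOpen_Ioo.mem_nhds (by simpa using hσa))] with r hr'
          have e := heq hr'
          simp only [one_mul, sub_add_cancel] at e
          show φ (geo g p w r) = _
          rw [← e]
          exact φ.right_inv (htgt _ hr')
        have hd : HasDerivAt (fun r => (Φ q (r - t) (P w)).1) (Φ q σ (P w)).2 (t + σ) := by
          have h1 := (Hadamard.isGeo_flow (hΦ q) (φ (geo g p w t)) (P w).2 σ).1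
          have h2 := HasDerivAt.comp_sub_const (t + σ) t
            (show HasDerivAt _ _ (t + σ - t) by rw [add_sub_cancel_left]; exact h1)
          exact h2
        refine ⟨Prod.ext ?_ ?_, ?_, htgt σ hσa⟩
        · simpa [stateAt] using hread.eq_of_nhds
        · show deriv (readAt q (geo g p w)) (t + σ) = _
          rw [hread.deriv_eq, hd.deriv]
        · have e := heq hσa
          simp only [one_mul, add_comm σ] at e
          exact e.symm
      have hflowσ : ContDiffAt ℝ ∞ (fun w => Φ q σ (P w)) w₀ :=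
        (contDiff_flow (hG q) (hΦ q) hσ.ne').contDiffAt.comp w₀ hP
      have ht : ((j + 1 : ℕ) : ℝ) * σ = t + σ := by push_cast; ring
      rw [ht]
      obtain ⟨-, hg2, hg3⟩ := hnear.self_of_nhds
      refine smoothState_of_chart (q := q) ?_ ?_
        (hflowσ.congr_of_eventuallyEq (hnear.mono fun w hw => hw.1))
      · rw [hg2]
        have := φ.map_target hg3
        rwa [extChartAt_source] at this
      · refine ContinuousAt.congr ?_ (hnear.mono fun w hw => hw.2.1.symm)
        exact ContinuousAt.comp (f := fun w => (Φ q σ (P w)).1)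
          ((contMDiffOn_extChartAt_symm (I := 𝓡 3) (n := ∞) q).contMDiffAt
            ((isOpen_extChartAt_target q).mem_nhds hg3)).continuousAt hflowσ.continuousAt.fst
  have := key N
  rwa [show (N : ℝ) * σ = 1 by rw [hσdef]; field_simp] at this

end

end

end Vale.Agent.P255.Cover
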