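import Vale.Agent.P255.Along
import Vale.Agent.P255.Hadamard.Complete

/-!
# Geodesics on a manifold, read in charts

Curves on an interval which satisfy the geodesic equation, their uniqueness, and local geodesics
from the flow of a complete extension of the coordinate metric.
-/

open scoped Manifold ContDiff Topology RealInnerProductSpace
open Filter Set

set_option maxSynthPendingDepth 3

namespace Vale.Agent.P255.Cover

open Vale.Agent.P219 Vale.Agent.P219.Univ Vale.Agent.P219.Six.Bridge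
open Vale.Agent.P219.Six (IsGeo sprayF)

noncomputable section

variable {M : Type} [TopologicalSpace M] [ChartedSpace E3 M] [IsManifold (𝓡 3) ∞ M]

/-- The geodesic equation at time `t`, in the preferred chart at the point at time `t`. -/
def GeoEq (g : SmoothMetric M) (γ : ℝ → M) (t : ℝ) : Prop :=
  deriv (deriv (curveAt γ t)) t +
    gam (inChart g (γ t)) (curveAt γ t t) (deriv (curveAt γ t) t) (deriv (curveAt γ t) t) = 0

/-- A curve which is a smooth geodesic on a set of times. -/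
structure GeoOn (g : SmoothMetric M) (γ : ℝ → M) (I : Set ℝ) : Prop where
  smooth : ∀ t ∈ I, ContMDiffAt 𝓘(ℝ) (𝓡 3) ∞ γ t
  eqn : ∀ t ∈ I, GeoEq g γ t

theorem GeoOn.mono {g : SmoothMetric M} {γ : ℝ → M} {I J : Set ℝ} (h : GeoOn g γ I) (hJ : J ⊆ I) :
    GeoOn g γ J :=
  ⟨fun t ht => h.smooth t (hJ ht), fun t ht => h.eqn t (hJ ht)⟩

theorem GeoOn.isGeodesic {g : SmoothMetric M} {γ : ℝ → M} (h : GeoOn g γ univ) : IsGeodesic g γ :=
  ⟨fun t => h.smooth t (mem_univ t), fun t => h.eqn t (mem_univ t)⟩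

theorem geoOn_of_isGeodesic {g : SmoothMetric M} {γ : ℝ → M} (h : IsGeodesic g γ) :
    GeoOn g γ univ :=
  ⟨fun t _ => h.1 t, fun t _ => h.2 t⟩

/-- Being a geodesic is a local property. -/
theorem GeoEq.congr {g : SmoothMetric M} {γ η : ℝ → M} {t : ℝ} (h : GeoEq g γ t)
    (he : η =ᶠ[𝓝 t] γ) : GeoEq g η t := by
  have h0 : η t = γ t := he.eq_of_nhds
  have h1 : curveAt η t =ᶠ[𝓝 t] curveAt γ t := by
    filter_upwards [he] with s hs
    simp [curveAt, hs, h0]
  unfold GeoEq at h ⊢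
  rw [h1.deriv.deriv_eq, h1.deriv_eq, h1.eq_of_nhds, h0]
  exact h

variable {g : SmoothMetric M} {N : E3 → M} {D : Set E3} {G : MetricField 3} {γ η : ℝ → M} {t : ℝ}
  {c : ℝ → E3}

/-- The acceleration read through a parametrisation. -/
theorem accel_lift (h : IsParam g N D G) (hc : IsLift γ N D t c) :
    deriv (deriv (curveAt γ t)) t +
      gam (inChart g (γ t)) (curveAt γ t t) (deriv (curveAt γ t) t) (deriv (curveAt γ t) t) =
      fderiv ℝ (coordChange N (γ t)) (c t)
        (deriv (deriv c) t + gam G (c t) (deriv c t) (deriv c t)) := by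
  obtain ⟨hy, hq⟩ := hc.chart_mem h
  have hd2 : DifferentiableAt ℝ (deriv c) t :=
    (((hc.smooth.self_of_nhds.fderiv_right (m := ∞) (by simp)).clm_apply
      contDiffAt_const).differentiableAt (by simp))
  have h1 := accel_pull (hc.smooth.mono fun s hs => hs.differentiableAt (by simp)) hd2
    (h.contDiffAt_coordChange hy hq) (h.bijective_coordChange hy hq)
    (IsParam.metricNear_chart hq g)
  rw [h.gam_eq hy hq] at h1
  have he : curveAt γ t =ᶠ[𝓝 t] coordChange N (γ t) ∘ c := hc.curveAt_eq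
  rw [he.deriv.deriv_eq, he.deriv_eq, he.eq_of_nhds]
  simp only [Function.comp_apply]
  exact h1

/-- A coordinate solution of the geodesic equation gives a geodesic. -/
theorem geoEq_of_lift (h : IsParam g N D G) (hc : IsLift γ N D t c)
    (he : deriv (deriv c) t = -gam G (c t) (deriv c t) (deriv c t)) : GeoEq g γ t := by
  rw [GeoEq, accel_lift h hc, he, neg_add_cancel, map_zero]

theorem geoEq_lift (h : IsParam g N D G) (hc : IsLift γ N D t c) (hγ : GeoEq g γ t) :
    HasDerivAt (deriv c) (-gam G (c t) (deriv c t) (deriv c t)) t := by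
  obtain ⟨hy, hq⟩ := hc.chart_mem h
  have hd2 : DifferentiableAt ℝ (deriv c) t :=
    (((hc.smooth.self_of_nhds.fderiv_right (m := ∞) (by simp)).clm_apply
      contDiffAt_const).differentiableAt (by simp))
  have h1 := accel_lift h hc
  rw [GeoEq] at hγ
  rw [hγ] at h1
  have h3 : deriv (deriv c) t + gam G (c t) (deriv c t) (deriv c t) = 0 :=
    (h.bijective_coordChange hy hq).1 (h1.symm.trans (map_zero _).symm)
  rw [← eq_neg_of_add_eq_zero_left h3]
  exact hd2.hasDerivAt

/-- A curve read in the chart at `q`. -/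
def readAt (q : M) (γ : ℝ → M) : ℝ → E3 := fun s => extChartAt (𝓡 3) q (γ s)

omit [IsManifold (𝓡 3) ∞ M] in
theorem curveAt_eq_readAt (γ : ℝ → M) (t : ℝ) : curveAt γ t = readAt (γ t) γ := rfl

theorem isLift_readAt {q : M} (hs : ∀ᶠ s in 𝓝 t, ContMDiffAt 𝓘(ℝ) (𝓡 3) ∞ γ s)
    (hq : γ t ∈ (chartAt E3 q).source) :
    IsLift γ (extChartAt (𝓡 3) q).symm (extChartAt (𝓡 3) q).target t (readAt q γ) := by
  have hsrc : ∀ᶠ s in 𝓝 t, γ s ∈ (chartAt E3 q).source :=
    hs.self_of_nhds.continuousAt.preimage_mem_nhds ((chartAt E3 q).open_source.mem_nhds hq)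
  refine ⟨hsrc.mono fun s hs' => ?_, ?_⟩
  · have h : γ s ∈ (extChartAt (𝓡 3) q).source := by rwa [extChartAt_source]
    exact ⟨(extChartAt (𝓡 3) q).map_source h, (extChartAt (𝓡 3) q).left_inv h⟩
  · filter_upwards [hsrc, hs] with s h1 h2
    exact ((contMDiffAt_extChartAt' (I := 𝓡 3) (n := ∞) h1).comp s h2).contDiffAt

theorem GeoOn.isLift {I : Set ℝ} (h : GeoOn g γ I) (hI : IsOpen I) (ht : t ∈ I) {q : M}
    (hq : γ t ∈ (chartAt E3 q).source) :
    IsLift γ (extChartAt (𝓡 3) q).symm (extChartAt (𝓡 3) q).target t (readAt q γ) :=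
  isLift_readAt ((hI.eventually_mem ht).mono fun s hs => h.smooth s hs) hq

/-- The geodesic equation in any chart. -/
theorem GeoOn.eq_readAt {I : Set ℝ} (h : GeoOn g γ I) (hI : IsOpen I) (ht : t ∈ I) {q : M}
    (hq : γ t ∈ (chartAt E3 q).source) :
    HasDerivAt (readAt q γ) (deriv (readAt q γ) t) t ∧
      HasDerivAt (deriv (readAt q γ))
        (-gam (inChart g q) (readAt q γ t) (deriv (readAt q γ) t) (deriv (readAt q γ) t)) t :=
  ⟨((h.isLift hI ht hq).smooth.self_of_nhds.differentiableAt (by simp)).hasDerivAt,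
    geoEq_lift (isParam_chart g q) (h.isLift hI ht hq) (h.eqn t ht)⟩

/-- Velocities in two charts. -/
theorem deriv_readAt (g : SmoothMetric M) {q : M} (hs : ∀ᶠ s in 𝓝 t, ContMDiffAt 𝓘(ℝ) (𝓡 3) ∞ γ s)
    (hq : γ t ∈ (chartAt E3 q).source) :
    deriv (curveAt γ t) t =
      fderiv ℝ (coordChange (extChartAt (𝓡 3) q).symm (γ t)) (readAt q γ t)
        (deriv (readAt q γ) t) :=
  (isLift_readAt hs hq).velocity (isParam_chart g q)

/-- The metric at a point, in the preferred chart there. -/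
def gAt (g : SmoothMetric M) (x : M) : E3 →L[ℝ] E3 →L[ℝ] ℝ :=
  inChart g x (extChartAt (𝓡 3) x x)

theorem gAt_eq (h : IsParam g N D G) {y : E3} (hy : y ∈ D) (u v : E3) :
    gAt g (N y) (fderiv ℝ (coordChange N (N y)) y u) (fderiv ℝ (coordChange N (N y)) y v) =
      G y u v :=
  h.apply_eq hy (mem_chart_source E3 (N y)) u v

/-- The transition from the chart at `q` to the chart at the point. -/
def toOwn (q x : M) : E3 →L[ℝ] E3 :=
  fderiv ℝ (coordChange (extChartAt (𝓡 3) q).symm x) (extChartAt (𝓡 3) q x)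

theorem bijective_toOwn (g : SmoothMetric M) {q x : M} (hx : x ∈ (chartAt E3 q).source) :
    Function.Bijective (toOwn q x) := by
  have h : x ∈ (extChartAt (𝓡 3) q).source := by rwa [extChartAt_source]
  refine (isParam_chart g q).bijective_coordChange ((extChartAt (𝓡 3) q).map_source h) ?_
  rw [(extChartAt (𝓡 3) q).left_inv h]
  exact mem_chart_source E3 x

theorem gAt_toOwn (g : SmoothMetric M) {q x : M} (hx : x ∈ (chartAt E3 q).source) (u v : E3) :
    gAt g x (toOwn q x u) (toOwn q x v) = inChart g q (extChartAt (𝓡 3) q x) u v := by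
  have h : x ∈ (extChartAt (𝓡 3) q).source := by rwa [extChartAt_source]
  have := gAt_eq (isParam_chart g q) ((extChartAt (𝓡 3) q).map_source h) u v
  rwa [(extChartAt (𝓡 3) q).left_inv h] at this

/-- Two solutions near `t` of the same equation with the same data agree near `t`. -/
theorem readAt_unique {I : Set ℝ} (hI : IsOpen I) (hγ : GeoOn g γ I) (hη : GeoOn g η I) (ht : t ∈ I)
    (h0 : γ t = η t) (h1 : deriv (curveAt γ t) t = deriv (curveAt η t) t) :
    γ =ᶠ[𝓝 t] η := by
  set q := γ t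
  have hq : γ t ∈ (chartAt E3 q).source := mem_chart_source E3 q
  have hq' : η t ∈ (chartAt E3 q).source := h0 ▸ hq
  set y := extChartAt (𝓡 3) q q
  have hy : y ∈ (extChartAt (𝓡 3) q).target := mem_extChartAt_target q
  obtain ⟨G, hG, hGe⟩ := ((isParam_chart g q).metricNear hy).extend
  set P : ℝ → E3 × E3 := fun s => (readAt q γ s, deriv (readAt q γ) s)
  set Q : ℝ → E3 × E3 := fun s => (readAt q η s, deriv (readAt q η) s)
  have hsrc : ∀ ζ : ℝ → M, GeoOn g ζ I → ζ t = q → ∀ᶠ s in 𝓝 t,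
      HasDerivAt (fun r => (readAt q ζ r, deriv (readAt q ζ) r))
        (sprayF G (readAt q ζ s, deriv (readAt q ζ) s)) s := by
    intro ζ hζ hζt
    have hct : ContinuousAt ζ t := (hζ.smooth t ht).continuousAt
    have hy' : readAt q ζ t = y := by simp [readAt, hζt, y]
    have hcr : ContinuousAt (readAt q ζ) t := by
      have := (hζ.isLift hI ht (q := q) (hζt ▸ mem_chart_source E3 q)).smooth.self_of_nhds.continuousAt
      exact this
    have hev : ∀ᶠ s in 𝓝 t, G =ᶠ[𝓝 (readAt q ζ s)] inChart g q := by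
      have := hGe.eventuallyEq_nhds
      rw [← hy'] at this
      exact hcr.eventually this
    filter_upwards [hev, hI.eventually_mem ht,
      hct.preimage_mem_nhds ((chartAt E3 q).open_source.mem_nhds (hζt ▸ mem_chart_source E3 q))]
      with s hs hsI hsq
    obtain ⟨e1, e2⟩ := hζ.eq_readAt hI hsI hsq
    refine e1.prodMk (e2.congr_deriv ?_)
    rw [gam_congr hs]
  have hF : ContDiff ℝ 1 (sprayF G) := (Hadamard.contDiff_spray hG).of_le (by simp)
  obtain ⟨K, s0, hs0, hK⟩ := hF.contDiffAt.exists_lipschitzOnWith (x := P t)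
  have hPt : P t = Q t := by
    have e : readAt q η = curveAt η t := by rw [curveAt_eq_readAt, ← h0]
    simp only [P, Q]
    rw [e, ← curveAt_eq_readAt, h1]
    simp [curveAt, h0, q]
  have hP := hsrc γ hγ rfl
  have hQ := hsrc η hη h0.symm
  have := ODE_solution_unique_of_eventually (v := fun _ => sprayF G) (s := fun _ => s0)
    (f := P) (g := Q) (t₀ := t) (Eventually.of_forall fun _ => hK)
    (hP.and (hP.self_of_nhds.continuousAt.preimage_mem_nhds hs0))
    (hQ.and (hQ.self_of_nhds.continuousAt.preimage_mem_nhds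
      (show s0 ∈ 𝓝 (Q t) from hPt ▸ hs0))) hPt
  filter_upwards [this, (hγ.smooth t ht).continuousAt.preimage_mem_nhds
    ((chartAt E3 q).open_source.mem_nhds hq), (hη.smooth t ht).continuousAt.preimage_mem_nhds
    ((chartAt E3 q).open_source.mem_nhds hq')] with s hs hs1 hs2
  refine (extChartAt (𝓡 3) q).injOn ?_ ?_ (congrArg Prod.fst hs) <;> rw [extChartAt_source]
  · exact hs1
  · exact hs2

/-- Geodesics with the same position and velocity at one time coincide. -/
theorem GeoOn.eqOn [T2Space M] {I : Set ℝ} (hI : IsOpen I) (hI' : IsPreconnected I)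
    (hγ : GeoOn g γ I) (hη : GeoOn g η I) {t₀ : ℝ} (ht₀ : t₀ ∈ I) (h0 : γ t₀ = η t₀)
    (h1 : deriv (curveAt γ t₀) t₀ = deriv (curveAt η t₀) t₀) : EqOn γ η I := by
  set S : Set ℝ := {t | γ t = η t ∧ deriv (curveAt γ t) t = deriv (curveAt η t) t}
  have hopen : ∀ t ∈ I, t ∈ S → S ∈ 𝓝 t := by
    intro t ht hS
    filter_upwards [(readAt_unique hI hγ hη ht hS.1 hS.2).eventuallyEq_nhds] with s hs
    refine ⟨hs.eq_of_nhds, ?_⟩
    have : curveAt γ s =ᶠ[𝓝 s] curveAt η s := hs.mono fun r hr => by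
      simp [curveAt, hr, hs.eq_of_nhds]
    exact this.deriv_eq
  have hclosed : ∀ t ∈ I, t ∈ closure S → t ∈ S := by
    intro t ht hcl
    have hfr : ∃ᶠ s in 𝓝 t, s ∈ S := mem_closure_iff_frequently.1 hcl
    have hpos : γ t = η t := by
      by_contra hne
      obtain ⟨U, V, hU, hV, hxU, hxV, hUV⟩ := t2_separation hne
      obtain ⟨s, ⟨hsS, hsU⟩, hsV⟩ := ((hfr.and_eventually
        ((hγ.smooth t ht).continuousAt.preimage_mem_nhds (hU.mem_nhds hxU))).and_eventually
        ((hη.smooth t ht).continuousAt.preimage_mem_nhds (hV.mem_nhds hxV))).exists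
      exact disjoint_left.1 hUV hsU (show γ s ∈ V from hsS.1 ▸ hsV)
    refine ⟨hpos, ?_⟩
    set q := γ t
    have hq : γ t ∈ (chartAt E3 q).source := mem_chart_source E3 q
    have hq' : η t ∈ (chartAt E3 q).source := hpos ▸ hq
    have hd : ∀ ζ : ℝ → M, GeoOn g ζ I → ζ t ∈ (chartAt E3 q).source →
        ContinuousAt (deriv (readAt q ζ)) t := fun ζ hζ hζq =>
      (hζ.eq_readAt hI ht hζq).2.continuousAt
    have hev : ∃ᶠ s in 𝓝 t, deriv (readAt q γ) s = deriv (readAt q η) s := by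
      have := hfr.and_eventually (hI.eventually_mem ht)
      refine this.mono fun s hs => ?_
      have he : readAt q γ =ᶠ[𝓝 s] readAt q η :=
        (readAt_unique hI hγ hη hs.2 hs.1.1 hs.1.2).mono fun r hr => by simp [readAt, hr]
      exact he.deriv_eq
    have heq : deriv (readAt q γ) t = deriv (readAt q η) t := by
      by_contra hne
      obtain ⟨U, V, hU, hV, hxU, hxV, hUV⟩ := t2_separation hne
      obtain ⟨s, ⟨hsS, hsU⟩, hsV⟩ := ((hev.and_eventually
        ((hd γ hγ hq).preimage_mem_nhds (hU.mem_nhds hxU))).and_eventually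
        ((hd η hη hq').preimage_mem_nhds (hV.mem_nhds hxV))).exists
      exact disjoint_left.1 hUV hsU (show deriv (readAt q γ) s ∈ V from hsS ▸ hsV)
    rw [curveAt_eq_readAt, curveAt_eq_readAt, ← hpos]
    exact heq
  have hsub : I ⊆ S := by
    refine hI'.subset_left_of_subset_union (v := (closure S)ᶜ) (u := interior S) isOpen_interior
      isClosed_closure.isOpen_compl ?_ ?_ ⟨t₀, ht₀, ?_⟩ |>.trans interior_subset
    · exact disjoint_left.2 fun x hx hx' => hx' (subset_closure (interior_subset hx))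
    · intro x hx
      by_cases hc : x ∈ closure S
      · exact Or.inl (mem_interior_iff_mem_nhds.2 (hopen x hx (hclosed x hx hc)))
      · exact Or.inr hc
    · exact mem_interior_iff_mem_nhds.2 (hopen t₀ ht₀ ⟨h0, h1⟩)
  exact fun s hs => (hsub hs).1

/-- A coordinate metric extends to a complete metric. -/
theorem exists_complete_extension (g : SmoothMetric M) (q : M) :
    ∃ (G : MetricField 3) (r c : ℝ), IsMetric G ∧ Hadamard.GeoComplete G ∧ 0 < r ∧ 0 < c ∧
      Metric.ball (extChartAt (𝓡 3) q q) r ⊆ (extChartAt (𝓡 3) q).target ∧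
      (∀ z ∈ Metric.ball (extChartAt (𝓡 3) q q) r, G =ᶠ[𝓝 z] inChart g q) ∧
      ∀ z v, c * ‖v‖ ^ 2 ≤ G z v v := by
  set y := extChartAt (𝓡 3) q q
  have hy : y ∈ (extChartAt (𝓡 3) q).target := mem_extChartAt_target q
  obtain ⟨G₀, hG₀, hG₀e⟩ := ((isParam_chart g q).metricNear hy).extend
  obtain ⟨r, hr, hrball⟩ := Metric.eventually_nhds_iff_ball.1
    ((isOpen_extChartAt_target q).eventually_mem hy |>.and hG₀e.eventuallyEq_nhds)
  let χ : ContDiffBump y := ⟨r / 2, r, by linarith, by linarith⟩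
  set G : MetricField 3 := fun z => χ z • G₀ z + (1 - χ z) • euclForm 3
  obtain ⟨c, hc, hc'⟩ : ∃ c > 0, ∀ z ∈ Metric.closedBall y r, ∀ v, c * ‖v‖ ^ 2 ≤ G₀ z v v := by
    have hK : IsCompact (Metric.closedBall y r ×ˢ Metric.sphere (0 : E3) 1) :=
      (isCompact_closedBall y r).prod (isCompact_sphere 0 1)
    have hne : (Metric.closedBall y r ×ˢ Metric.sphere (0 : E3) 1).Nonempty :=
      (Metric.nonempty_closedBall.2 hr.le).prod (NormedSpace.sphere_nonempty.2 zero_le_one)
    have hcont : Continuous fun p : E3 × E3 => G₀ p.1 p.2 p.2 :=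
      ((hG₀.smooth.continuous.comp continuous_fst).clm_apply continuous_snd).clm_apply continuous_snd
    obtain ⟨p, hp, hmin⟩ := hK.exists_isMinOn hne hcont.continuousOn
    have hp2 : ‖p.2‖ = 1 := mem_sphere_zero_iff_norm.1 hp.2
    refine ⟨G₀ p.1 p.2 p.2, hG₀.pos _ _ (by intro h; simp [h] at hp2), fun z hz v => ?_⟩
    rcases eq_or_ne v 0 with rfl | hv
    · simp
    · have h := isMinOn_iff.1 hmin (z, ‖v‖⁻¹ • v) ⟨hz, by simp [norm_smul, hv]⟩
      simp only [map_smul, smul_apply, smul_eq_mul] at h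
      have hn : 0 < ‖v‖ := norm_pos_iff.2 hv
      calc G₀ p.1 p.2 p.2 * ‖v‖ ^ 2 ≤ ‖v‖⁻¹ * (‖v‖⁻¹ * G₀ z v v) * ‖v‖ ^ 2 :=
            mul_le_mul_of_nonneg_right h (sq_nonneg _)
        _ = _ := by field_simp
  set c₀ := min c 1
  have hc₀ : 0 < c₀ := lt_min hc one_pos
  have hlow : ∀ z v, c₀ * ‖v‖ ^ 2 ≤ G z v v := by
    intro z v
    have h1 : (χ z) * (c₀ * ‖v‖ ^ 2) ≤ χ z * G₀ z v v := by
      by_cases hz : z ∈ Metric.closedBall y r
      · exact mul_le_mul_of_nonneg_left
          ((mul_le_mul_of_nonneg_right (min_le_left c 1) (sq_nonneg _)).trans (hc' z hz v)) χ.nonneg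
      · rw [χ.zero_of_le_dist (by
          simp only [Metric.mem_closedBall, not_le] at hz
          exact hz.le)]
        simp
    have h2 : (1 - χ z) * (c₀ * ‖v‖ ^ 2) ≤ (1 - χ z) * inner ℝ v v := by
      rw [real_inner_self_eq_norm_sq]
      exact mul_le_mul_of_nonneg_left (mul_le_of_le_one_left (sq_nonneg _) (min_le_right c 1))
        (sub_nonneg.2 χ.le_one)
    simp only [G, add_apply, smul_apply, smul_eq_mul, euclForm_apply]
    linarith
  have hG : IsMetric G := by
    refine ⟨?_, fun z u v => ?_, fun z u hu => ?_⟩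
    · exact (χ.contDiff.smul hG₀.smooth).add ((contDiff_const.sub χ.contDiff).smul contDiff_const)
    · simp [G, hG₀.symm z u v, euclForm_apply, real_inner_comm]
    · exact lt_of_lt_of_le (by have := norm_pos_iff.2 hu; positivity) (hlow z u)
  have hrad : ∀ x v : E3, Real.sqrt c₀ * |inner ℝ x v| ≤ ‖x‖ * gNorm G x v := by
    intro x v
    have h1 : Real.sqrt c₀ * ‖v‖ ≤ gNorm G x v := by
      refine Real.le_sqrt_of_sq_le ?_
      rw [mul_pow, Real.sq_sqrt hc₀.le]
      exact hlow x v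
    calc Real.sqrt c₀ * |inner ℝ x v| ≤ Real.sqrt c₀ * (‖x‖ * ‖v‖) :=
          mul_le_mul_of_nonneg_left (abs_real_inner_le_norm x v) (Real.sqrt_nonneg _)
      _ = ‖x‖ * (Real.sqrt c₀ * ‖v‖) := by ring
      _ ≤ _ := mul_le_mul_of_nonneg_left h1 (norm_nonneg _)
  refine ⟨G, r / 2, c₀, hG, Hadamard.geoComplete_of_radial hG (Real.sqrt_pos.2 hc₀) hrad,
    half_pos hr, hc₀, fun z hz => (hrball z ?_).1, fun z hz => ?_, hlow⟩
  · exact Metric.ball_subset_ball (by linarith) hz
  · refine EventuallyEq.trans ?_ (hrball z (Metric.ball_subset_ball (by linarith) hz)).2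
    filter_upwards [Metric.isOpen_ball.mem_nhds hz] with w hw
    simp [G, χ.one_of_mem_closedBall (Metric.ball_subset_closedBall hw)]

/-- Local geodesics near a point, from the flow of an extended coordinate metric. -/
theorem exists_local_flow (g : SmoothMetric M) (q : M) :
    ∃ (U : Set M) (k : ℝ) (G : MetricField 3) (Φ : ℝ → E3 × E3 → E3 × E3),
      IsOpen U ∧ q ∈ U ∧ U ⊆ (chartAt E3 q).source ∧ 0 < k ∧ IsMetric G ∧ IsFlow (sprayF G) Φ ∧
      ∀ x ∈ U, ∀ w : E3, ∀ a : ℝ,
        k * a * Real.sqrt (inChart g q (extChartAt (𝓡 3) q x) w w) < 1 →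
        GeoOn g (fun s => (extChartAt (𝓡 3) q).symm (Φ s (extChartAt (𝓡 3) q x, w)).1)
            (Ioo (-a) a) ∧
          ∀ s ∈ Ioo (-a) a, (Φ s (extChartAt (𝓡 3) q x, w)).1 ∈ (extChartAt (𝓡 3) q).target := by
  obtain ⟨G, r, c, hG, hgc, hr, hc, hball, hGe, hlow⟩ := exists_complete_extension g q
  obtain ⟨Φ, hΦ⟩ := hgc.exists_isFlow hG
  set φ := extChartAt (𝓡 3) q
  refine ⟨φ.source ∩ φ ⁻¹' Metric.ball (φ q) (r / 2), 2 / (r * Real.sqrt c), G, Φ,
    isOpen_extChartAt_preimage' q Metric.isOpen_ball,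
    ⟨mem_extChartAt_source q, Metric.mem_ball_self (half_pos hr)⟩,
    fun x hx => by have := hx.1; rwa [extChartAt_source] at this, by positivity, hG, hΦ,
    fun x hx w a ha => ?_⟩
  obtain ⟨hx1, hx2⟩ := hx
  simp only [mem_preimage, Metric.mem_ball] at hx2
  set p := (φ x, w)
  have hgeo := Hadamard.isGeo_flow hΦ (φ x) w
  set L := Real.sqrt (inChart g q (φ x) w w)
  have hGx : G (φ x) w w = inChart g q (φ x) w w := by
    rw [(hGe (φ x) (by simp only [Metric.mem_ball]; linarith)).eq_of_nhds]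
  have hspeed : ∀ s, G (Φ s p).1 (Φ s p).2 (Φ s p).2 = G (φ x) w w := by
    have hd : ∀ s, HasDerivAt (fun r => G (Φ r p).1 (Φ r p).2 (Φ r p).2) 0 s := fun s =>
      (Geo.hasDerivAt_g hG (hgeo s).1 (hgeo s).2 (hgeo s).2).congr_deriv (by simp)
    intro s
    rw [is_const_of_deriv_eq_zero (fun r => (hd r).differentiableAt) (fun r => (hd r).deriv) s 0]
    simp [hΦ.zero, p]
  have hv : ∀ s, ‖(Φ s p).2‖ ≤ L / Real.sqrt c := fun s => by
    rw [le_div_iff₀ (Real.sqrt_pos.2 hc)]
    refine Real.le_sqrt_of_sq_le ?_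
    rw [mul_pow, Real.sq_sqrt hc.le, mul_comm, ← hGx, ← hspeed s]
    exact hlow _ _
  have hin : ∀ s ∈ Ioo (-a) a, (Φ s p).1 ∈ Metric.ball (φ q) r := by
    intro s hs
    have h1 := convex_univ.norm_image_sub_le_of_norm_hasDerivWithin_le
      (fun r _ => (hgeo r).1.hasDerivWithinAt) (fun r _ => hv r) (mem_univ (0 : ℝ)) (mem_univ s)
    simp only [hΦ.zero, sub_zero, Real.norm_eq_abs] at h1
    have h2 : L / Real.sqrt c * |s| < r / 2 := by
      have h3 : L / Real.sqrt c * |s| ≤ L / Real.sqrt c * a :=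
        mul_le_mul_of_nonneg_left (abs_le.2 ⟨hs.1.le, hs.2.le⟩)
          (div_nonneg (Real.sqrt_nonneg _) (Real.sqrt_nonneg _))
      have h4 : L / Real.sqrt c * a = (2 / (r * Real.sqrt c) * a * L) * (r / 2) := by field_simp
      have h5 : (2 / (r * Real.sqrt c) * a * L) * (r / 2) < 1 * (r / 2) :=
        mul_lt_mul_of_pos_right ha (half_pos hr)
      linarith
    rw [Metric.mem_ball]
    calc dist (Φ s p).1 (φ q) ≤ dist (Φ s p).1 (φ x) + dist (φ x) (φ q) := dist_triangle _ _ _
      _ < r := by rw [dist_eq_norm]; linarith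
  refine ⟨?_, fun s hs => hball (hin s hs)⟩
  set c₁ : ℝ → E3 := fun s => (Φ s p).1
  have hd1 : deriv c₁ = fun s => (Φ s p).2 := funext fun s => (hgeo s).1.deriv
  have hsm : ∀ s ∈ Ioo (-a) a, ContDiffAt ℝ ∞ c₁ s := fun s _ => by
    have : ContDiff ℝ ∞ fun r => (Φ r p).1 := by
      have e : (fun r => (Φ r p).1) = fun r => (Φ 1 (φ x, r • w)).1 :=
        funext fun r => (Hadamard.flow_smul hΦ hG (φ x) w r).symm
      rw [e]
      exact contDiff_fst.comp (hΦ.contDiff_one.comp
        (contDiff_const.prodMk (contDiff_id.smul contDiff_const)))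
    exact this.contDiffAt
  refine ⟨fun s hs => ?_, fun s hs => ?_⟩
  · exact ((contMDiffOn_extChartAt_symm q).contMDiffAt
      ((isOpen_extChartAt_target q).mem_nhds (hball (hin s hs)))).comp s (hsm s hs).contMDiffAt
  · have hl : IsLift (fun r => φ.symm (c₁ r)) φ.symm φ.target s c₁ :=
      ⟨(isOpen_Ioo.eventually_mem hs).mono fun r hr => ⟨hball (hin r hr), rfl⟩,
        (isOpen_Ioo.eventually_mem hs).mono fun r hr => hsm r hr⟩
    refine geoEq_of_lift (isParam_chart g q) hl ?_
    rw [hd1, ← gam_congr (hGe _ (hin s hs))]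
    exact (hgeo s).2.deriv

end

end Vale.Agent.P255.Cover
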